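import Vale.Agent.P054.T3.H226.Phi

set_option autoImplicit false
set_option linter.all false

/-!
# P054 / T3 / H226: the sum over product cells, for an extremal product set (`n = 2`)

`W : Finset α → Finset α → ℝ` a monotone functional (number of flags on `X × Y`), `X × Y` maximises
`W / Φ` among the products of size at least `w`.  Then for classes of `X`, `Y` with at most `q^(-3)` of
the points, `∑ W (X_i) (Y_j) ≤ (A + 3) q^(6 b - 7/2) W X Y`.
-/

namespace Vale.Agent.P054.T3.H226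

open Finset

variable {α : Type*} [DecidableEq α]

/-- **the extremal product set**, for a functional `W` -/
structure ExtW (W : Finset α → Finset α → ℝ) (T : Finset α → ℝ) (P X Y : Finset α) (b w : ℝ) :
    Prop where
  hX : X ⊆ P
  hY : Y ⊆ P
  big : w ≤ (X.card : ℝ) * Y.card
  max : ∀ X' ⊆ P, ∀ Y' ⊆ P, w ≤ (X'.card : ℝ) * Y'.card →
    W X' Y' * Phi b (X.card * Y.card) (T X + T Y) ≤
      W X Y * Phi b (X'.card * Y'.card) (T X' + T Y')

theorem exists_extW (W : Finset α → Finset α → ℝ) (T : Finset α → ℝ)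
    (P : Finset α) (b w : ℝ) (hw : 0 < w) (hP : w ≤ (P.card : ℝ) * P.card) :
    ∃ X Y, ExtW W T P X Y b w := by
  classical
  let C : Finset (Finset α × Finset α) :=
    (P.powerset ×ˢ P.powerset).filter fun q => w ≤ (q.1.card : ℝ) * q.2.card
  have hC : C.Nonempty := ⟨(P, P), by simp [C, hP]⟩
  obtain ⟨⟨X, Y⟩, hXY, hmax⟩ := Finset.exists_max_image C
    (fun q => W q.1 q.2 / Phi b (q.1.card * q.2.card) (T q.1 + T q.2)) hC
  simp only [C, mem_filter, mem_product, mem_powerset] at hXY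
  refine ⟨X, Y, hXY.1.1, hXY.1.2, hXY.2, fun X' hX' Y' hY' hw' => ?_⟩
  have h1 := hmax (X', Y') (by simp [C, hX', hY', hw'])
  simp only at h1
  have h2 : 0 < Phi b ((X.card : ℝ) * Y.card) (T X + T Y) := Phi_pos (lt_of_lt_of_le hw hXY.2)
  have h3 : 0 < Phi b ((X'.card : ℝ) * Y'.card) (T X' + T Y') := Phi_pos (lt_of_lt_of_le hw hw')
  rw [div_le_div_iff₀ h3 h2] at h1
  exact h1

/-- large products -/
theorem ExtW.large {W : Finset α → Finset α → ℝ} {T : Finset α → ℝ} {P X Y : Finset α} {b w : ℝ}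
    (h : ExtW W T P X Y b w) (hw : 0 < w) (hW : 0 ≤ W X Y) (hT : 0 < T X + T Y)
    {X' Y' : Finset α} (hX' : X' ⊆ P) (hY' : Y' ⊆ P) (hT' : 0 ≤ T X' + T Y')
    (hw' : w ≤ (X'.card : ℝ) * Y'.card) :
    W X' Y' ≤ W X Y * (((X'.card : ℝ) * Y'.card / ((X.card : ℝ) * Y.card)) ^ (3 / 2 - b) *
        ((T X' + T Y') / (T X + T Y)) ^ (1 / 2 : ℝ) +
      ((X'.card : ℝ) * Y'.card / ((X.card : ℝ) * Y.card)) ^ (5 / 3 - b)) := by
  have hN : 0 < (X.card : ℝ) * Y.card := lt_of_lt_of_le hw h.big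
  have hN' : 0 < (X'.card : ℝ) * Y'.card := lt_of_lt_of_le hw hw'
  have h1 := h.max X' hX' Y' hY' hw'
  have h2 := Phi_le (b := b) hN hT hN' hT'
  have h3 : 0 < Phi b ((X.card : ℝ) * Y.card) (T X + T Y) := Phi_pos hN
  have h4 := h1.trans (mul_le_mul_of_nonneg_left h2 hW)
  refine le_of_mul_le_mul_right ?_ h3
  refine h4.trans (le_of_eq ?_)
  ring

theorem exists_enlarge {A B : Finset α} (hAB : A ⊆ B) {c w : ℝ} (hc : 0 < c)
    (hA : (A.card : ℝ) * c < w) (hB : w ≤ (B.card : ℝ) * c) :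
    ∃ A', A ⊆ A' ∧ A' ⊆ B ∧ w ≤ (A'.card : ℝ) * c ∧ (A'.card : ℝ) * c ≤ w + c := by
  have hw : 0 < w := lt_of_le_of_lt (by positivity) hA
  set k := ⌈w / c⌉₊ with hk
  have h1 : w / c ≤ k := Nat.le_ceil _
  have h2 : (k : ℝ) < w / c + 1 := Nat.ceil_lt_add_one (by positivity)
  have hAk : A.card ≤ k := by
    have : (A.card : ℝ) < w / c := by rwa [lt_div_iff₀ hc]
    have : (A.card : ℝ) < k := lt_of_lt_of_le this h1
    exact_mod_cast this.le
  have hkB : k ≤ B.card := by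
    refine Nat.ceil_le.2 ?_
    rwa [div_le_iff₀ hc]
  obtain ⟨A', hA1, hA2, hA3⟩ := Finset.exists_subsuperset_card_eq hAB hAk hkB
  refine ⟨A', hA1, hA2, ?_, ?_⟩
  · rw [hA3]; rwa [div_le_iff₀ hc] at h1
  · rw [hA3]
    have h3 : (k : ℝ) * c ≤ (w / c + 1) * c := by gcongr
    calc (k : ℝ) * c ≤ (w / c + 1) * c := h3
      _ = w + c := by field_simp

/-- small products -/
theorem ExtW.small {W : Finset α → Finset α → ℝ} {T : Finset α → ℝ} {P X Y : Finset α} {b w : ℝ}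
    (h : ExtW W T P X Y b w) (hw : 0 < w) (hW : 0 ≤ W X Y) (hT : 0 < T X + T Y)
    (hWm : ∀ X₁ Y₁ X₂ Y₂, X₁ ⊆ X₂ → Y₁ ⊆ Y₂ → X₂ ⊆ P → Y₂ ⊆ P → W X₁ Y₁ ≤ W X₂ Y₂)
    (hT0 : ∀ Z ⊆ P, 0 ≤ T Z) (hTm : ∀ Z Z', Z ⊆ Z' → Z' ⊆ P → T Z ≤ T Z')
    (hb0 : 0 ≤ b) (hb1 : b ≤ 1)
    (hp : (P.card : ℝ) ≤ w) (h2w : 2 * w ≤ (X.card : ℝ) * Y.card)
    {X' Y' : Finset α} (hX' : X' ⊆ X) (hY' : Y' ⊆ Y)
    (hw' : (X'.card : ℝ) * Y'.card < w) :
    W X' Y' ≤ W X Y * (2 * (2 * w / ((X.card : ℝ) * Y.card)) ^ (3 / 2 - b)) := by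
  have hN : 0 < (X.card : ℝ) * Y.card := lt_of_lt_of_le hw h.big
  have hXp : (X.card : ℝ) ≤ w := le_trans (by exact_mod_cast card_le_card h.hX) hp
  have hYp : (Y.card : ℝ) ≤ w := le_trans (by exact_mod_cast card_le_card h.hY) hp
  have hX0 : 0 < (X.card : ℝ) := by
    rcases (Nat.cast_nonneg X.card : (0 : ℝ) ≤ X.card).eq_or_lt with h0 | h0
    · rw [← h0, zero_mul] at hN; exact absurd hN (lt_irrefl _)
    · exact h0
  -- enlarge
  obtain ⟨X'', Y'', hX1, hX2, hY1, hY2, hl, hu⟩ : ∃ X'' Y'', X' ⊆ X'' ∧ X'' ⊆ X ∧ Y' ⊆ Y'' ∧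
      Y'' ⊆ Y ∧ w ≤ (X''.card : ℝ) * Y''.card ∧ (X''.card : ℝ) * Y''.card ≤ 2 * w := by
    rcases le_or_gt w ((X.card : ℝ) * Y'.card) with h1 | h1
    · have hY'0 : 0 < (Y'.card : ℝ) := by
        rcases (Nat.cast_nonneg Y'.card : (0 : ℝ) ≤ Y'.card).eq_or_lt with h0 | h0
        · rw [← h0, mul_zero] at h1; exact absurd h1 (not_le.2 hw)
        · exact h0
      obtain ⟨X'', h2, h3, h4, h5⟩ := exists_enlarge hX' hY'0 hw' h1
      refine ⟨X'', Y', h2, h3, Finset.Subset.refl _, hY', h4, h5.trans ?_⟩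
      have : (Y'.card : ℝ) ≤ Y.card := by exact_mod_cast card_le_card hY'
      linarith
    · obtain ⟨Y'', h2, h3, h4, h5⟩ := exists_enlarge hY' hX0 (by rwa [mul_comm] at h1)
        (by rw [mul_comm]; exact h.big)
      refine ⟨X, Y'', hX', Finset.Subset.refl _, h2, h3, by rwa [mul_comm] at h4, ?_⟩
      rw [mul_comm]
      linarith
  have hX''P := hX2.trans h.hX
  have hY''P := hY2.trans h.hY
  have hT' : 0 ≤ T X'' + T Y'' := add_nonneg (hT0 _ hX''P) (hT0 _ hY''P)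
  have h1 := h.large hw hW hT hX''P hY''P hT' hl
  refine (hWm _ _ _ _ hX1 hY1 hX''P hY''P).trans (h1.trans ?_)
  refine mul_le_mul_of_nonneg_left ?_ hW
  set u := (X''.card : ℝ) * Y''.card / ((X.card : ℝ) * Y.card) with hu'
  set v := 2 * w / ((X.card : ℝ) * Y.card) with hv
  have hu0 : 0 < u := div_pos (lt_of_lt_of_le hw hl) hN
  have huv : u ≤ v := by rw [hu', hv]; gcongr
  have hv1 : v ≤ 1 := by rw [hv, div_le_one hN]; exact h2w
  have h3 : ((T X'' + T Y'') / (T X + T Y)) ^ (1 / 2 : ℝ) ≤ 1 := by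
    refine Real.rpow_le_one (div_nonneg hT' hT.le) ?_ (by norm_num)
    rw [div_le_one hT]
    exact add_le_add (hTm _ _ hX2 h.hX) (hTm _ _ hY2 h.hY)
  have h4 : u ^ (3 / 2 - b) ≤ v ^ (3 / 2 - b) := Real.rpow_le_rpow hu0.le huv (by linarith)
  have h5 : u ^ (5 / 3 - b) ≤ v ^ (3 / 2 - b) := by
    refine le_trans ?_ h4
    exact Real.rpow_le_rpow_of_exponent_ge hu0 (huv.trans hv1) (by linarith)
  have h6 : u ^ (3 / 2 - b) * ((T X'' + T Y'') / (T X + T Y)) ^ (1 / 2 : ℝ) ≤ u ^ (3 / 2 - b) :=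
    mul_le_of_le_one_right (Real.rpow_nonneg hu0.le _) h3
  linarith

/-- numerical bound for one pair of classes -/
theorem pair_bound {b q u v : ℝ} (hb1 : b ≤ 1 / 2) (hq : 1 ≤ q) (hu0 : 0 < u)
    (huq : u ≤ (q ^ 3)⁻¹ * (q ^ 3)⁻¹) (hv0 : 0 ≤ v) :
    u ^ (3 / 2 - b) * v ^ (1 / 2 : ℝ) + u ^ (5 / 3 - b) ≤
      u * (q ^ (6 * b - 7 / 2) / 2 + q ^ (6 * b - 5 / 2) / 2 * v) + u * q ^ (6 * b - 4) := by
  have hq0 : 0 < q := by linarith
  have hq3 : (q ^ 3)⁻¹ = q ^ (-3 : ℝ) := by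
    rw [Real.rpow_neg hq0.le]; norm_cast
  have huq' : u ≤ q ^ (-6 : ℝ) := by
    refine huq.trans (le_of_eq ?_)
    rw [hq3, ← Real.rpow_add hq0]
    norm_num
  have h2 : u ^ (3 / 2 - b) ≤ u * q ^ (6 * b - 3) := by
    rw [show (3 / 2 - b : ℝ) = 1 + (1 / 2 - b) by ring, Real.rpow_add hu0, Real.rpow_one]
    refine mul_le_mul_of_nonneg_left ?_ hu0.le
    calc u ^ (1 / 2 - b) ≤ (q ^ (-6 : ℝ)) ^ (1 / 2 - b) :=
          Real.rpow_le_rpow hu0.le huq' (by linarith)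
      _ = q ^ (6 * b - 3) := by
          rw [← Real.rpow_mul hq0.le]
          congr 1
          ring
  have h3 : u ^ (5 / 3 - b) ≤ u * q ^ (6 * b - 4) := by
    rw [show (5 / 3 - b : ℝ) = 1 + (2 / 3 - b) by ring, Real.rpow_add hu0, Real.rpow_one]
    refine mul_le_mul_of_nonneg_left ?_ hu0.le
    calc u ^ (2 / 3 - b) ≤ (q ^ (-6 : ℝ)) ^ (2 / 3 - b) :=
          Real.rpow_le_rpow hu0.le huq' (by linarith)
      _ = q ^ (6 * b - 4) := by
          rw [← Real.rpow_mul hq0.le]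
          congr 1
          ring
  -- `v^(1/2) ≤ (q^(-1/2) + q^(1/2) v)/2`
  have h4 : v ^ (1 / 2 : ℝ) ≤ q ^ (-1 / 2 : ℝ) / 2 + q ^ (1 / 2 : ℝ) / 2 * v := by
    have e2 : v ^ (1 / 2 : ℝ) = Real.sqrt v := (Real.sqrt_eq_rpow v).symm
    have e3 : q ^ (1 / 2 : ℝ) = Real.sqrt q := (Real.sqrt_eq_rpow q).symm
    have e4 : q ^ (-1 / 2 : ℝ) = (Real.sqrt q)⁻¹ := by
      rw [show (-1 / 2 : ℝ) = -(1 / 2) by norm_num, Real.rpow_neg hq0.le, e3]
    rw [e2, e3, e4]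
    have hs : 0 < Real.sqrt q := Real.sqrt_pos.2 hq0
    have hsa := Real.sq_sqrt hv0
    have h6 : 2 * (Real.sqrt q * Real.sqrt v) ≤ 1 + Real.sqrt q ^ 2 * v := by
      nlinarith [sq_nonneg (1 - Real.sqrt q * Real.sqrt v)]
    have h8 : (Real.sqrt q)⁻¹ * (2 * (Real.sqrt q * Real.sqrt v)) ≤
        (Real.sqrt q)⁻¹ * (1 + Real.sqrt q ^ 2 * v) :=
      mul_le_mul_of_nonneg_left h6 (by positivity)
    have h9 : (Real.sqrt q)⁻¹ * (1 + Real.sqrt q ^ 2 * v) =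
        (Real.sqrt q)⁻¹ + Real.sqrt q * v := by
      field_simp
    have h7 : (Real.sqrt q)⁻¹ * (2 * (Real.sqrt q * Real.sqrt v)) = 2 * Real.sqrt v := by
      field_simp
    rw [h9, h7] at h8
    linarith
  have h5 : u ^ (3 / 2 - b) * v ^ (1 / 2 : ℝ) ≤
      u * (q ^ (6 * b - 7 / 2) / 2 + q ^ (6 * b - 5 / 2) / 2 * v) := by
    have h6 : u ^ (3 / 2 - b) * v ^ (1 / 2 : ℝ) ≤
        (u * q ^ (6 * b - 3)) *
          (q ^ (-1 / 2 : ℝ) / 2 + q ^ (1 / 2 : ℝ) / 2 * v) :=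
      mul_le_mul h2 h4 (Real.rpow_nonneg hv0 _) (by positivity)
    refine h6.trans (le_of_eq ?_)
    rw [show (6 * b - 7 / 2 : ℝ) = (6 * b - 3) + (-1 / 2) by ring,
      show (6 * b - 5 / 2 : ℝ) = (6 * b - 3) + (1 / 2) by ring, Real.rpow_add hq0,
      Real.rpow_add hq0]
    ring
  exact add_le_add h5 h3

/-- the weighted average of the `T` -/
theorem sum_xyv {I J : Type*} (IX : Finset I) (IY : Finset J) (x TX : I → ℝ) (y TY : J → ℝ)
    {r B tX tY : ℝ} (hr : 0 ≤ r) (hB : 0 ≤ B) (htX : 0 ≤ tX) (htY : 0 ≤ tY) (ht : 0 < tX + tY)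
    (hx0 : ∀ i ∈ IX, 0 ≤ x i) (hy0 : ∀ j ∈ IY, 0 ≤ y j)
    (hTX : ∀ i ∈ IX, 0 ≤ TX i) (hTY : ∀ j ∈ IY, 0 ≤ TY j)
    (hxr : ∀ i ∈ IX, x i ≤ r) (hyr : ∀ j ∈ IY, y j ≤ r)
    (hsx : ∑ i ∈ IX, x i ≤ 1) (hsy : ∑ j ∈ IY, y j ≤ 1)
    (hX : ∑ i ∈ IX, TX i ≤ B * tX) (hY : ∑ j ∈ IY, TY j ≤ B * tY) :
    ∑ i ∈ IX, ∑ j ∈ IY, x i * y j * ((TX i + TY j) / (tX + tY)) ≤ r * B := by
  have h1 : ∑ c ∈ IX, x c * TX c ≤ r * (B * tX) := by
    calc ∑ c ∈ IX, x c * TX c ≤ ∑ c ∈ IX, r * TX c :=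
          Finset.sum_le_sum fun c hc => mul_le_mul_of_nonneg_right (hxr c hc) (hTX c hc)
      _ = r * ∑ c ∈ IX, TX c := by rw [Finset.mul_sum]
      _ ≤ _ := mul_le_mul_of_nonneg_left hX hr
  have h2 : ∑ c ∈ IY, y c * TY c ≤ r * (B * tY) := by
    calc ∑ c ∈ IY, y c * TY c ≤ ∑ c ∈ IY, r * TY c :=
          Finset.sum_le_sum fun c hc => mul_le_mul_of_nonneg_right (hyr c hc) (hTY c hc)
      _ = r * ∑ c ∈ IY, TY c := by rw [Finset.mul_sum]
      _ ≤ _ := mul_le_mul_of_nonneg_left hY hr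
  have h10 : 0 ≤ ∑ c ∈ IX, x c * TX c :=
    Finset.sum_nonneg fun c hc => mul_nonneg (hx0 c hc) (hTX c hc)
  have h20 : 0 ≤ ∑ c ∈ IY, y c * TY c :=
    Finset.sum_nonneg fun c hc => mul_nonneg (hy0 c hc) (hTY c hc)
  have hsx0 : 0 ≤ ∑ i ∈ IX, x i := Finset.sum_nonneg hx0
  have hsy0 : 0 ≤ ∑ j ∈ IY, y j := Finset.sum_nonneg hy0
  have e0 : ∑ i ∈ IX, ∑ j ∈ IY, x i * y j * ((TX i + TY j) / (tX + tY)) =
      ((∑ i ∈ IX, x i * TX i) * (∑ j ∈ IY, y j) +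
        (∑ i ∈ IX, x i) * (∑ j ∈ IY, y j * TY j)) / (tX + tY) := by
    rw [Finset.sum_mul_sum, Finset.sum_mul_sum, ← Finset.sum_add_distrib, Finset.sum_div]
    refine Finset.sum_congr rfl fun i _ => ?_
    rw [← Finset.sum_add_distrib, Finset.sum_div]
    refine Finset.sum_congr rfl fun j _ => ?_
    field_simp
  rw [e0, div_le_iff₀ ht]
  have h3 : (∑ i ∈ IX, x i * TX i) * (∑ j ∈ IY, y j) ≤ r * (B * tX) * 1 :=
    mul_le_mul h1 hsy hsy0 (by positivity)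
  have h4 : (∑ i ∈ IX, x i) * (∑ j ∈ IY, y j * TY j) ≤ 1 * (r * (B * tY)) :=
    mul_le_mul hsx h2 h20 (by positivity)
  calc _ ≤ r * (B * tX) * 1 + 1 * (r * (B * tY)) := add_le_add h3 h4
    _ = r * B * (tX + tY) := by ring

/-- the relative sizes of the classes add up to one -/
theorem sum_frac {C : Type*} [DecidableEq C] (X : Finset α) (cX : α → Option C)
    (hX0 : 0 < (X.card : ℝ)) :
    ∑ c ∈ (X.image cX).erase none, ((X.filter fun x => cX x = c).card : ℝ) / X.card ≤ 1 := by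
  have h1 : ∑ c ∈ X.image cX, ((X.filter fun x => cX x = c).card : ℝ) / X.card = 1 := by
    rw [← Finset.sum_div]
    have : ∑ c ∈ X.image cX, ((X.filter fun x => cX x = c).card : ℝ) = X.card := by
      exact_mod_cast (Finset.card_eq_sum_card_image cX X).symm
    rw [this, div_self hX0.ne']
  rw [← h1]
  exact Finset.sum_le_sum_of_subset_of_nonneg (erase_subset _ _) fun c _ _ => by positivity

/-- sum over pairs of classes different from `none` -/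
theorem sum_ne_none {C C' : Type*} [DecidableEq C] [DecidableEq C'] (I : Finset (Option C))
    (J : Finset (Option C')) (f : Option C → Option C' → ℝ) :
    ∑ c ∈ I, ∑ c' ∈ J, (if c ≠ none ∧ c' ≠ none then f c c' else 0) =
      ∑ c ∈ I.erase none, ∑ c' ∈ J.erase none, f c c' := by
  rw [← Finset.sum_subset (Finset.erase_subset none I)]
  · refine Finset.sum_congr rfl fun c hc => ?_
    have hc0 := Finset.ne_of_mem_erase hc
    rw [← Finset.sum_subset (Finset.erase_subset none J)]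
    · refine Finset.sum_congr rfl fun c' hc' => ?_
      rw [if_pos ⟨hc0, Finset.ne_of_mem_erase hc'⟩]
    · intro c' hc' hc'2
      rw [if_neg]
      rintro ⟨-, h2⟩
      exact hc'2 (Finset.mem_erase.2 ⟨h2, hc'⟩)
  · intro c hc hc2
    refine Finset.sum_eq_zero fun c' _ => ?_
    rw [if_neg]
    rintro ⟨h2, -⟩
    exact hc2 (Finset.mem_erase.2 ⟨h2, hc⟩)

/-- one pair of classes -/
theorem ExtW.pair {W : Finset α → Finset α → ℝ} {T : Finset α → ℝ} {P X Y : Finset α} {b w : ℝ}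
    (h : ExtW W T P X Y b w) (hw : 0 < w) (hW : 0 ≤ W X Y) (hT : 0 < T X + T Y)
    (hWm : ∀ X₁ Y₁ X₂ Y₂, X₁ ⊆ X₂ → Y₁ ⊆ Y₂ → X₂ ⊆ P → Y₂ ⊆ P → W X₁ Y₁ ≤ W X₂ Y₂)
    (hT0 : ∀ Z ⊆ P, 0 ≤ T Z) (hTm : ∀ Z Z', Z ⊆ Z' → Z' ⊆ P → T Z ≤ T Z')
    (hb0 : 0 ≤ b) (hb1 : b ≤ 1 / 2)
    (hp : (P.card : ℝ) ≤ w) (h2w : 2 * w ≤ (X.card : ℝ) * Y.card)
    {q : ℝ} (hq : 1 ≤ q) (hX0 : 0 < (X.card : ℝ)) (hY0 : 0 < (Y.card : ℝ))
    {X' Y' : Finset α} (hX' : X' ⊆ X) (hY' : Y' ⊆ Y) (p : Prop) [Decidable p]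
    (hp' : w ≤ (X'.card : ℝ) * Y'.card → p)
    (hpX : p → (X'.card : ℝ) * q ^ 3 ≤ X.card) (hpY : p → (Y'.card : ℝ) * q ^ 3 ≤ Y.card) :
    W X' Y' ≤ W X Y * ((if p then
      ((X'.card : ℝ) / X.card * ((Y'.card : ℝ) / Y.card)) *
        (q ^ (6 * b - 7 / 2) / 2 + q ^ (6 * b - 5 / 2) / 2 * ((T X' + T Y') / (T X + T Y))) +
      ((X'.card : ℝ) / X.card * ((Y'.card : ℝ) / Y.card)) * q ^ (6 * b - 4) else 0) +
      2 * (2 * w / ((X.card : ℝ) * Y.card)) ^ (3 / 2 - b)) := by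
  have hN : 0 < (X.card : ℝ) * Y.card := mul_pos hX0 hY0
  have hq0 : 0 < q := by linarith
  have hv0 : 0 ≤ (T X' + T Y') / (T X + T Y) :=
    div_nonneg (add_nonneg (hT0 _ (hX'.trans h.hX)) (hT0 _ (hY'.trans h.hY))) hT.le
  by_cases hbig : w ≤ (X'.card : ℝ) * Y'.card
  · rw [if_pos (hp' hbig)]
    have h1 := h.large hw hW hT (hX'.trans h.hX) (hY'.trans h.hY)
      (add_nonneg (hT0 _ (hX'.trans h.hX)) (hT0 _ (hY'.trans h.hY))) hbig
    refine h1.trans (mul_le_mul_of_nonneg_left ?_ hW)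
    have e1 : (X'.card : ℝ) * Y'.card / ((X.card : ℝ) * Y.card) =
        (X'.card : ℝ) / X.card * ((Y'.card : ℝ) / Y.card) := by field_simp
    rw [e1]
    have hxq : (X'.card : ℝ) / X.card ≤ (q ^ 3)⁻¹ := by
      rw [div_le_iff₀ hX0, inv_mul_eq_div, le_div_iff₀ (by positivity)]
      exact hpX (hp' hbig)
    have hyq : (Y'.card : ℝ) / Y.card ≤ (q ^ 3)⁻¹ := by
      rw [div_le_iff₀ hY0, inv_mul_eq_div, le_div_iff₀ (by positivity)]
      exact hpY (hp' hbig)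
    have hu0 : 0 < (X'.card : ℝ) / X.card * ((Y'.card : ℝ) / Y.card) := by
      rw [← e1]
      exact div_pos (lt_of_lt_of_le hw hbig) hN
    have h2 := pair_bound hb1 hq hu0 (mul_le_mul hxq hyq (by positivity) (by positivity)) hv0
    have h3 : 0 ≤ 2 * (2 * w / ((X.card : ℝ) * Y.card)) ^ (3 / 2 - b) := by positivity
    linarith
  · have h1 := h.small hw hW hT hWm hT0 hTm hb0 (by linarith) hp h2w hX' hY' (not_le.1 hbig)
    refine h1.trans (mul_le_mul_of_nonneg_left ?_ hW)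
    refine le_add_of_nonneg_left ?_
    split_ifs
    · positivity
    · exact le_rfl

/-- **the sum over the product cells** -/
theorem ExtW.cells {W : Finset α → Finset α → ℝ} {T : Finset α → ℝ} {P X Y : Finset α} {b w : ℝ}
    (h : ExtW W T P X Y b w) (hw : 0 < w) (hW : 0 ≤ W X Y) (hT : 0 < T X + T Y)
    (hWm : ∀ X₁ Y₁ X₂ Y₂, X₁ ⊆ X₂ → Y₁ ⊆ Y₂ → X₂ ⊆ P → Y₂ ⊆ P → W X₁ Y₁ ≤ W X₂ Y₂)
    (hT0 : ∀ Z ⊆ P, 0 ≤ T Z) (hTm : ∀ Z Z', Z ⊆ Z' → Z' ⊆ P → T Z ≤ T Z')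
    (hb0 : 0 ≤ b) (hb1 : b ≤ 1 / 2)
    (hp : (P.card : ℝ) ≤ w) (h2w : 2 * w ≤ (X.card : ℝ) * Y.card)
    {C C' : Type*} [DecidableEq C] [DecidableEq C'] (cX : α → Option C) (cY : α → Option C')
    {q A : ℝ} (hq : 1 ≤ q) (hA : 0 ≤ A)
    (hcX : ∀ c, ((X.filter fun x => cX x = some c).card : ℝ) * q ^ 3 ≤ X.card)
    (hcY : ∀ c, ((Y.filter fun x => cY x = some c).card : ℝ) * q ^ 3 ≤ Y.card)
    (hnX : ((X.filter fun x => cX x = none).card : ℝ) * Y.card < w)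
    (hnY : (X.card : ℝ) * (Y.filter fun x => cY x = none).card < w)
    (hTX : ∑ c ∈ (X.image cX).erase none, T (X.filter fun x => cX x = c) ≤ A * q ^ 2 * T X)
    (hTY : ∑ c ∈ (Y.image cY).erase none, T (Y.filter fun x => cY x = c) ≤ A * q ^ 2 * T Y)
    {M : ℝ} (hMX : ((X.image cX).card : ℝ) ≤ M) (hMY : ((Y.image cY).card : ℝ) ≤ M)
    (hqw : M ^ 2 * (2 * (2 * w / ((X.card : ℝ) * Y.card)) ^ (3 / 2 - b)) ≤ q ^ (6 * b - 7 / 2)) :
    ∑ c ∈ X.image cX, ∑ c' ∈ Y.image cY,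
      W (X.filter fun x => cX x = c) (Y.filter fun x => cY x = c') ≤
        W X Y * ((A + 3) * q ^ (6 * b - 7 / 2)) := by
  have hN : 0 < (X.card : ℝ) * Y.card := lt_of_lt_of_le hw h.big
  have hX0 : 0 < (X.card : ℝ) := by
    rcases (Nat.cast_nonneg X.card : (0 : ℝ) ≤ X.card).eq_or_lt with h0 | h0
    · rw [← h0, zero_mul] at hN; exact absurd hN (lt_irrefl _)
    · exact h0
  have hY0 : 0 < (Y.card : ℝ) := by
    rcases (Nat.cast_nonneg Y.card : (0 : ℝ) ≤ Y.card).eq_or_lt with h0 | h0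
    · rw [← h0, mul_zero] at hN; exact absurd hN (lt_irrefl _)
    · exact h0
  have hq0 : 0 < q := by linarith
  set small : ℝ := 2 * (2 * w / ((X.card : ℝ) * Y.card)) ^ (3 / 2 - b) with hsmall
  have hs0 : 0 ≤ small := by rw [hsmall]; positivity
  let x : Option C → ℝ := fun c => ((X.filter fun x => cX x = c).card : ℝ) / X.card
  let y : Option C' → ℝ := fun c => ((Y.filter fun x => cY x = c).card : ℝ) / Y.card
  let v : Option C → Option C' → ℝ := fun c c' =>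
    (T (X.filter fun x => cX x = c) + T (Y.filter fun x => cY x = c')) / (T X + T Y)
  have hXP : ∀ c, (X.filter fun x => cX x = c) ⊆ P := fun c => (filter_subset _ _).trans h.hX
  have hYP : ∀ c, (Y.filter fun x => cY x = c) ⊆ P := fun c => (filter_subset _ _).trans h.hY
  -- one pair of classes
  have key : ∀ c c', W (X.filter fun x => cX x = c) (Y.filter fun x => cY x = c') ≤ W X Y *
      ((if c ≠ none ∧ c' ≠ none then
        (x c * y c') * (q ^ (6 * b - 7 / 2) / 2 + q ^ (6 * b - 5 / 2) / 2 * v c c') +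
          (x c * y c') * q ^ (6 * b - 4) else 0) + small) := by
    intro c c'
    refine h.pair hw hW hT hWm hT0 hTm hb0 hb1 hp h2w hq hX0 hY0 (filter_subset _ _)
      (filter_subset _ _) (c ≠ none ∧ c' ≠ none) ?_ ?_ ?_
    · intro hbig
      constructor
      · rintro rfl
        have h1 : ((X.filter fun x => cX x = none).card : ℝ) *
            (Y.filter fun x => cY x = c').card ≤
            ((X.filter fun x => cX x = none).card : ℝ) * Y.card := by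
          gcongr
          exact filter_subset _ _
        linarith
      · rintro rfl
        have h1 : ((X.filter fun x => cX x = c).card : ℝ) *
            (Y.filter fun x => cY x = none).card ≤
            (X.card : ℝ) * (Y.filter fun x => cY x = none).card := by
          gcongr
          exact filter_subset _ _
        linarith
    · rintro ⟨hc, -⟩
      obtain ⟨c, rfl⟩ := Option.ne_none_iff_exists'.1 hc
      exact hcX c
    · rintro ⟨-, hc⟩
      obtain ⟨c, rfl⟩ := Option.ne_none_iff_exists'.1 hc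
      exact hcY c
  -- sums
  have hsx : ∑ c ∈ (X.image cX).erase none, x c ≤ 1 := sum_frac X cX hX0
  have hsy : ∑ c ∈ (Y.image cY).erase none, y c ≤ 1 := sum_frac Y cY hY0
  have hx0 : ∀ c, 0 ≤ x c := fun c => by positivity
  have hy0 : ∀ c, 0 ≤ y c := fun c => by positivity
  set IX := (X.image cX).erase none with hIX
  set IY := (Y.image cY).erase none with hIY
  -- `∑ x y ≤ 1`
  have hS1 : ∑ c ∈ IX, ∑ c' ∈ IY, x c * y c' ≤ 1 := by
    rw [← Finset.sum_mul_sum]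
    exact mul_le_one₀ hsx (Finset.sum_nonneg fun c _ => hy0 c) hsy
  -- `∑ x y v ≤ A / q`
  have hS2 : ∑ c ∈ IX, ∑ c' ∈ IY, x c * y c' * v c c' ≤ (q ^ 3)⁻¹ * (A * q ^ 2) := by
    refine sum_xyv IX IY x (fun c => T (X.filter fun x => cX x = c)) y
      (fun c => T (Y.filter fun x => cY x = c)) (by positivity) (by positivity)
      (hT0 _ h.hX) (hT0 _ h.hY) hT (fun c _ => hx0 c) (fun c _ => hy0 c)
      (fun c _ => hT0 _ (hXP c)) (fun c _ => hT0 _ (hYP c)) ?_ ?_ hsx hsy hTX hTY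
    · intro c hc
      obtain ⟨c', rfl⟩ := Option.ne_none_iff_exists'.1 (Finset.ne_of_mem_erase hc)
      show ((X.filter fun x => cX x = some c').card : ℝ) / X.card ≤ _
      rw [div_le_iff₀ hX0, inv_mul_eq_div, le_div_iff₀ (by positivity)]
      exact hcX c'
    · intro c hc
      obtain ⟨c', rfl⟩ := Option.ne_none_iff_exists'.1 (Finset.ne_of_mem_erase hc)
      show ((Y.filter fun x => cY x = some c').card : ℝ) / Y.card ≤ _
      rw [div_le_iff₀ hY0, inv_mul_eq_div, le_div_iff₀ (by positivity)]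
      exact hcY c'
  have hcount : (((X.image cX).card : ℝ)) * ((Y.image cY).card : ℝ) ≤ M ^ 2 := by
    rw [sq]
    exact mul_le_mul hMX hMY (Nat.cast_nonneg _) ((Nat.cast_nonneg _).trans hMX)
  have e5 : q ^ (6 * b - 5 / 2) * q⁻¹ = q ^ (6 * b - 7 / 2) := by
    rw [← Real.rpow_neg_one q, ← Real.rpow_add hq0]
    congr 1
    ring
  have e6 : q ^ (6 * b - 4) ≤ q ^ (6 * b - 7 / 2) :=
    Real.rpow_le_rpow_of_exponent_le hq (by linarith)
  have e7 : q ^ (6 * b - 5 / 2) / 2 * ((q ^ 3)⁻¹ * (A * q ^ 2)) =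
      A / 2 * q ^ (6 * b - 7 / 2) := by
    rw [← e5]
    field_simp
  set Q : ℝ := q ^ (6 * b - 7 / 2) with hQ
  have hQ0 : 0 ≤ Q := by rw [hQ]; positivity
  set R : ℝ := q ^ (6 * b - 5 / 2) with hR
  have hR0 : 0 ≤ R := by rw [hR]; positivity
  calc ∑ c ∈ X.image cX, ∑ c' ∈ Y.image cY,
        W (X.filter fun x => cX x = c) (Y.filter fun x => cY x = c')
      ≤ ∑ c ∈ X.image cX, ∑ c' ∈ Y.image cY, W X Y *
        ((if c ≠ none ∧ c' ≠ none then
          (x c * y c') * (Q / 2 + R / 2 * v c c') + (x c * y c') * q ^ (6 * b - 4) else 0) +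
            small) :=
        Finset.sum_le_sum fun c _ => Finset.sum_le_sum fun c' _ => key c c'
    _ = W X Y * ((∑ c ∈ X.image cX, ∑ c' ∈ Y.image cY, (if c ≠ none ∧ c' ≠ none then
          (x c * y c') * (Q / 2 + R / 2 * v c c') + (x c * y c') * q ^ (6 * b - 4) else 0)) +
          (((X.image cX).card : ℝ)) * ((Y.image cY).card : ℝ) * small) := by
        simp only [← Finset.mul_sum, Finset.sum_add_distrib, Finset.sum_const, nsmul_eq_mul]
        ring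
    _ = W X Y * (((Q / 2 + q ^ (6 * b - 4)) * (∑ c ∈ IX, ∑ c' ∈ IY, x c * y c') +
          R / 2 * (∑ c ∈ IX, ∑ c' ∈ IY, x c * y c' * v c c')) +
          (((X.image cX).card : ℝ)) * ((Y.image cY).card : ℝ) * small) := by
        rw [sum_ne_none]
        congr 2
        rw [Finset.mul_sum, Finset.mul_sum, ← Finset.sum_add_distrib]
        refine Finset.sum_congr rfl fun c _ => ?_
        rw [Finset.mul_sum, Finset.mul_sum, ← Finset.sum_add_distrib]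
        refine Finset.sum_congr rfl fun c' _ => ?_
        ring
    _ ≤ W X Y * (((Q / 2 + Q) * 1 + A / 2 * Q) + Q) := by
        refine mul_le_mul_of_nonneg_left (add_le_add (add_le_add ?_ ?_) ?_) hW
        · refine mul_le_mul (by linarith) hS1 ?_ (by positivity)
          exact Finset.sum_nonneg fun c _ => Finset.sum_nonneg fun c' _ =>
            mul_nonneg (hx0 c) (hy0 c')
        · rw [← e7]
          exact mul_le_mul_of_nonneg_left hS2 (by positivity)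
        · exact (mul_le_mul_of_nonneg_right hcount hs0).trans hqw
    _ ≤ W X Y * ((A + 3) * Q) := by
        refine mul_le_mul_of_nonneg_left ?_ hW
        have : 0 ≤ A * Q := mul_nonneg hA hQ0
        linarith

end Vale.Agent.P054.T3.H226
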