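import Vale.Agent.P054.H978.Final
import Vale.Agent.P054.T2.H686.Pairs

set_option autoImplicit false
set_option linter.all false

/-!
# P054 / T3 / H226: zero sets of polynomials on `P × P`

`hyp_single`: a set `P ⊂ ℝ^d`, `d = n + 1 ≥ 3`, with at most `t` distances and at least `t^(d/2)`
points has less than `|P|^(1-η)` points on every hypersurface of degree at most `t^η`
(theorem on hypersurfaces, `H978`).
`hyp_prod`: `P × P` has at most `|P|^(2-η)` points on the zero sets of polynomials in `2 d`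
variables whose degrees add up to at most `t^η`.
-/

namespace Vale.Agent.P054.T3.H226

open Finset Module
open Vale.Agent.P054.T2.H686 (E dists coe_dists)

/-- `t ≤ |P|` and `t ≤ |P|^(2/d)` -/
theorem card_ge_of_pow {n : ℕ} (hn : 1 ≤ n) {t : ℕ} (ht1 : 1 ≤ t) {P : Finset (E n)}
    (hPt : (t : ℝ) ^ (((n + 1 : ℕ) : ℝ) / 2) ≤ P.card) : (t : ℝ) ≤ P.card := by
  have ht1r : (1 : ℝ) ≤ t := by exact_mod_cast ht1
  refine le_trans ?_ hPt
  have hd : (2 : ℝ) ≤ ((n + 1 : ℕ) : ℝ) := by exact_mod_cast (by omega : 2 ≤ n + 1)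
  calc (t : ℝ) = (t : ℝ) ^ (1 : ℝ) := (Real.rpow_one _).symm
    _ ≤ _ := Real.rpow_le_rpow_of_exponent_le ht1r (by linarith)

/-- **points on one hypersurface** -/
theorem hyp_single (n : ℕ) (hn : 2 ≤ n) : ∃ η : ℝ, 0 < η ∧ ∃ t₀ : ℕ, ∀ t : ℕ, t₀ ≤ t → 1 ≤ t →
    ∀ P : Finset (E n), (dists P).card ≤ t →
      (t : ℝ) ^ (((n + 1 : ℕ) : ℝ) / 2) ≤ P.card →
      ∀ f : MvPolynomial (Fin (n + 1)) ℝ, f ≠ 0 → (f.totalDegree : ℝ) ≤ (t : ℝ) ^ η →
        ((P.filter fun p => MvPolynomial.eval (fun i => p i) f = 0).card : ℝ) <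
          (P.card : ℝ) ^ (1 - η) := by
  classical
  obtain ⟨η, hη, H⟩ := Vale.Agent.P054.H978.hypersurfaces (n + 1) (by omega)
  obtain ⟨c, hc, H⟩ := H 1
  set d : ℝ := ((n + 1 : ℕ) : ℝ) with hd
  have hd0 : 3 ≤ d := by rw [hd]; exact_mod_cast (by omega : 3 ≤ n + 1)
  -- `c t₀^η > 1`
  obtain ⟨t₀, ht₀⟩ : ∃ t₀ : ℕ, ∀ t : ℕ, t₀ ≤ t → 1 < c * (t : ℝ) ^ η := by
    have h1 := (tendsto_rpow_atTop hη).comp tendsto_natCast_atTop_atTop
    have h2 := (h1.const_mul_atTop hc).eventually_gt_atTop (1 : ℝ)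
    rw [Filter.eventually_atTop] at h2
    exact h2
  refine ⟨η, hη, max t₀ 2, fun t ht ht1 P hP hPt f hf hfd => ?_⟩
  by_contra hcon
  push Not at hcon
  have htN := card_ge_of_pow (by omega) ht1 hPt
  set N : ℝ := (P.card : ℝ) with hN
  set z : ℕ := (P.filter fun p => MvPolynomial.eval (fun i => p i) f = 0).card with hz
  have ht1r : (1 : ℝ) ≤ t := by exact_mod_cast ht1
  have ht0r : (0 : ℝ) < t := by linarith
  have ht2 : (2 : ℝ) ≤ t := by exact_mod_cast (le_max_right _ _).trans ht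
  have hN0 : 0 < N := by linarith
  have hN1 : 1 ≤ N := by linarith
  obtain ⟨p, hp, -, h1⟩ := H P f (by
      have : (2 : ℝ) ≤ P.card := by rw [← hN]; linarith
      exact_mod_cast this) hf (by
      calc (f.totalDegree : ℝ) ≤ (t : ℝ) ^ η := hfd
        _ ≤ N ^ η := Real.rpow_le_rpow ht0r.le htN hη.le
        _ = 1 * N ^ η := (one_mul _).symm) (by
      have hzc : {p : EuclideanSpace ℝ (Fin (n + 1)) | p ∈ P ∧
          MvPolynomial.eval (fun i => p i) f = 0}.ncard = z := by
        rw [hz, ← Set.ncard_coe_finset]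
        congr 1
        ext p
        simp
      rw [hzc, ← hN, one_mul]
      exact hcon)
  have h2 : ({r : ℝ | ∃ q ∈ P, q ≠ p ∧ r = dist p q}.ncard : ℝ) ≤ t := by
    have h3 : {r : ℝ | ∃ q ∈ P, q ≠ p ∧ r = dist p q} ⊆ (dists P : Set ℝ) := by
      rw [coe_dists]
      rintro r ⟨q, hq, hqp, rfl⟩
      exact ⟨p, hp, q, hq, hqp.symm, rfl⟩
    have h4 := Set.ncard_le_ncard h3 (dists P).finite_toSet
    rw [Set.ncard_coe_finset] at h4
    exact_mod_cast h4.trans hP
  -- `t ≤ N^(2/d)`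
  have h5 : (t : ℝ) ≤ N ^ (2 / d) := by
    have h6 : ((t : ℝ) ^ (d / 2)) ^ (2 / d) ≤ N ^ (2 / d) :=
      Real.rpow_le_rpow (by positivity) hPt (by positivity)
    rw [← Real.rpow_mul ht0r.le, show d / 2 * (2 / d) = 1 by field_simp, Real.rpow_one] at h6
    exact h6
  have h6 : c * N ^ (2 / d + η) ≤ N ^ (2 / d) := h1.trans (h2.trans h5)
  rw [Real.rpow_add hN0] at h6
  have h7 : 0 < N ^ (2 / d) := by positivity
  have h8 : c * N ^ η ≤ 1 := by
    by_contra h9
    push Not at h9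
    nlinarith
  have h9 := ht₀ t ((le_max_left _ _).trans ht)
  have h10 : c * (t : ℝ) ^ η ≤ c * N ^ η := by gcongr
  linarith

/-- substitution of polynomials of degree at most one does not increase the degree -/
theorem totalDegree_aeval_le {σ τ : Type*} [Fintype σ] (g : σ → MvPolynomial τ ℝ)
    (hg : ∀ i, (g i).totalDegree ≤ 1) (f : MvPolynomial σ ℝ) :
    (MvPolynomial.aeval g f).totalDegree ≤ f.totalDegree := by
  classical
  rw [MvPolynomial.aeval_def, MvPolynomial.eval₂_eq']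
  refine MvPolynomial.totalDegree_finsetSum_le fun m hm => ?_
  refine (MvPolynomial.totalDegree_mul _ _).trans ?_
  have h1 : (algebraMap ℝ (MvPolynomial τ ℝ) (MvPolynomial.coeff m f)).totalDegree = 0 := by
    rw [MvPolynomial.algebraMap_eq, MvPolynomial.totalDegree_C]
  rw [h1, zero_add]
  refine (MvPolynomial.totalDegree_finset_prod _ _).trans ?_
  have h2 := MvPolynomial.le_totalDegree hm
  rw [Finsupp.sum_fintype _ _ (fun _ => rfl)] at h2
  refine le_trans (Finset.sum_le_sum fun i _ => ?_) h2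
  refine (MvPolynomial.totalDegree_pow _ _).trans ?_
  calc m i * (g i).totalDegree ≤ m i * 1 := Nat.mul_le_mul_left _ (hg i)
    _ = m i := mul_one _

/-- **one polynomial in `2 d` variables** -/
theorem card_zeros_prod_le {d : ℕ} (P : Finset (EuclideanSpace ℝ (Fin d))) {D z : ℕ}
    (hz : ∀ f : MvPolynomial (Fin d) ℝ, f ≠ 0 → f.totalDegree ≤ D →
      (P.filter fun p => MvPolynomial.eval (fun i => p i) f = 0).card ≤ z)
    (f : MvPolynomial (Fin d ⊕ Fin d) ℝ) (hf : f ≠ 0) (hfD : f.totalDegree ≤ D) :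
    ((P ×ˢ P).filter fun s => MvPolynomial.eval (Sum.elim s.1 s.2) f = 0).card ≤
      2 * (P.card * z) := by
  classical
  -- a point where `f` does not vanish
  obtain ⟨u, hu⟩ : ∃ u : Fin d ⊕ Fin d → ℝ, MvPolynomial.eval u f ≠ 0 := by
    by_contra h
    push Not at h
    exact hf (MvPolynomial.funext fun u => by rw [h u, map_zero])
  set x₀ : Fin d → ℝ := fun i => u (Sum.inl i) with hx₀
  set y₀ : Fin d → ℝ := fun i => u (Sum.inr i) with hy₀
  let g : MvPolynomial (Fin d) ℝ :=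
    MvPolynomial.aeval (Sum.elim (fun i => MvPolynomial.C (x₀ i)) MvPolynomial.X) f
  let F : (Fin d → ℝ) → MvPolynomial (Fin d) ℝ := fun y =>
    MvPolynomial.aeval (Sum.elim MvPolynomial.X (fun i => MvPolynomial.C (y i))) f
  have hge : ∀ y, MvPolynomial.eval y g = MvPolynomial.eval (Sum.elim x₀ y) f := by
    intro y
    simp only [g]
    rw [← MvPolynomial.coe_aeval_eq_eval, ← MvPolynomial.coe_aeval_eq_eval]
    change ((MvPolynomial.aeval y).comp (MvPolynomial.aeval _)) f = MvPolynomial.aeval _ f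
    congr 1
    ext i
    rcases i with i | i <;> simp
  have hFe : ∀ y x, MvPolynomial.eval x (F y) = MvPolynomial.eval (Sum.elim x y) f := by
    intro y x
    simp only [F]
    rw [← MvPolynomial.coe_aeval_eq_eval, ← MvPolynomial.coe_aeval_eq_eval]
    change ((MvPolynomial.aeval x).comp (MvPolynomial.aeval _)) f = MvPolynomial.aeval _ f
    congr 1
    ext i
    rcases i with i | i <;> simp
  have hg0 : g ≠ 0 := by
    intro h
    apply hu
    have h1 := hge y₀
    rw [h, map_zero] at h1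
    have h2 : u = Sum.elim x₀ y₀ := by
      funext i
      rcases i with i | i <;> rfl
    rw [h2]
    exact h1.symm
  have hgD : g.totalDegree ≤ D := by
    refine (totalDegree_aeval_le _ (fun i => ?_) f).trans hfD
    rcases i with i | i
    · simp
    · simp [MvPolynomial.totalDegree_X]
  have hFD : ∀ y, (F y).totalDegree ≤ D := by
    intro y
    refine (totalDegree_aeval_le _ (fun i => ?_) f).trans hfD
    rcases i with i | i
    · simp [MvPolynomial.totalDegree_X]
    · simp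
  have hF0 : ∀ y, MvPolynomial.eval y g ≠ 0 → F y ≠ 0 := by
    intro y hy h
    apply hy
    rw [hge, ← hFe, h, map_zero]
  -- the two parts
  set Y := P.filter fun y => MvPolynomial.eval (fun i => y i) g = 0 with hY
  have hsub : ((P ×ˢ P).filter fun s => MvPolynomial.eval (Sum.elim s.1 s.2) f = 0) ⊆
      (P ×ˢ Y) ∪ P.biUnion (fun y => if MvPolynomial.eval (fun i => y i) g = 0 then ∅ else
        ((P.filter fun x => MvPolynomial.eval (fun i => x i) (F fun i => y i) = 0).image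
          fun x => (x, y))) := by
    rintro ⟨x, y⟩ hs
    rw [mem_filter, mem_product] at hs
    obtain ⟨⟨hx, hy⟩, hs⟩ := hs
    rw [mem_union]
    by_cases hyg : MvPolynomial.eval (fun i => y i) g = 0
    · left
      exact mem_product.2 ⟨hx, mem_filter.2 ⟨hy, hyg⟩⟩
    · right
      refine mem_biUnion.2 ⟨y, hy, ?_⟩
      rw [if_neg hyg]
      refine mem_image.2 ⟨x, mem_filter.2 ⟨hx, ?_⟩, rfl⟩
      rw [hFe]
      exact hs
  have h1 : (P ×ˢ Y).card ≤ P.card * z := by
    rw [card_product]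
    exact Nat.mul_le_mul_left _ (hz g hg0 hgD)
  have h2 : (P.biUnion (fun y => if MvPolynomial.eval (fun i => y i) g = 0 then ∅ else
        ((P.filter fun x => MvPolynomial.eval (fun i => x i) (F fun i => y i) = 0).image
          fun x => (x, y)))).card ≤ P.card * z := by
    refine card_biUnion_le_card_mul _ _ _ fun y _ => ?_
    by_cases hyg : MvPolynomial.eval (fun i => y i) g = 0
    · rw [if_pos hyg]
      simp
    · rw [if_neg hyg]
      exact card_image_le.trans (hz _ (hF0 _ hyg) (hFD _))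
  refine (card_le_card hsub).trans ((card_union_le _ _).trans ?_)
  omega

/-- **the zero class**: polynomials on `P × P` -/
theorem hyp_prod (n : ℕ) (hn : 2 ≤ n) : ∃ η : ℝ, 0 < η ∧ ∃ t₀ : ℕ, ∀ t : ℕ, t₀ ≤ t → 1 ≤ t →
    ∀ P : Finset (E n), (dists P).card ≤ t →
      (t : ℝ) ^ (((n + 1 : ℕ) : ℝ) / 2) ≤ P.card →
      ∀ {J : Type} [Fintype J] (f : J → MvPolynomial (Fin (n + 1) ⊕ Fin (n + 1)) ℝ),
        (∀ j, f j ≠ 0) → ((∑ j, (f j).totalDegree : ℕ) : ℝ) ≤ (t : ℝ) ^ η →
        (((P ×ˢ P).filter fun s : E n × E n =>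
          ∃ j, MvPolynomial.eval (Sum.elim s.1 s.2) (f j) = 0).card : ℝ) ≤
          (P.card : ℝ) ^ (2 - η) := by
  classical
  obtain ⟨η, hη, t₀, H⟩ := hyp_single n hn
  obtain ⟨t₁, ht₁⟩ : ∃ t₁ : ℕ, ∀ t : ℕ, t₁ ≤ t → 2 < (t : ℝ) ^ (η / 2) := by
    have h1 := (tendsto_rpow_atTop (show 0 < η / 2 by positivity)).comp
      tendsto_natCast_atTop_atTop
    have h2 := h1.eventually_gt_atTop (2 : ℝ)
    rw [Filter.eventually_atTop] at h2
    exact h2
  refine ⟨η / 2, by positivity, max t₀ t₁, fun t ht ht1 P hP hPt J _ f hf hfd => ?_⟩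
  have htN := card_ge_of_pow (by omega) ht1 hPt
  have ht1r : (1 : ℝ) ≤ t := by exact_mod_cast ht1
  have ht0r : (0 : ℝ) < t := by linarith
  have hN0 : (0 : ℝ) < P.card := by linarith
  have hN1 : (1 : ℝ) ≤ P.card := by linarith
  set g : MvPolynomial (Fin (n + 1) ⊕ Fin (n + 1)) ℝ := ∏ j, f j with hg
  have hg0 : g ≠ 0 := Finset.prod_ne_zero_iff.2 fun j _ => hf j
  have hgd : g.totalDegree ≤ ∑ j, (f j).totalDegree := MvPolynomial.totalDegree_finset_prod _ _
  set D := ∑ j, (f j).totalDegree with hD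
  have hDt : (D : ℝ) ≤ (t : ℝ) ^ η := by
    refine hfd.trans (Real.rpow_le_rpow_of_exponent_le ht1r (by linarith))
  have hz : ∀ f : MvPolynomial (Fin (n + 1)) ℝ, f ≠ 0 → f.totalDegree ≤ D →
      (P.filter fun p => MvPolynomial.eval (fun i => p i) f = 0).card ≤
        ⌊(P.card : ℝ) ^ (1 - η)⌋₊ := by
    intro f hf hfD
    refine Nat.le_floor ?_
    refine (H t ((le_max_left _ _).trans ht) ht1 P hP hPt f hf ?_).le
    exact le_trans (by exact_mod_cast hfD) hDt
  have h1 := card_zeros_prod_le P hz g hg0 hgd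
  have h2 : ((P ×ˢ P).filter fun s : E n × E n =>
      ∃ j, MvPolynomial.eval (Sum.elim s.1 s.2) (f j) = 0).card ≤
      2 * (P.card * ⌊(P.card : ℝ) ^ (1 - η)⌋₊) := by
    refine le_trans (card_le_card ?_) h1
    intro s hs
    rw [mem_filter] at hs ⊢
    refine ⟨hs.1, ?_⟩
    obtain ⟨j, hj⟩ := hs.2
    rw [hg, map_prod]
    exact Finset.prod_eq_zero (mem_univ j) hj
  calc (((P ×ˢ P).filter fun s : E n × E n =>
      ∃ j, MvPolynomial.eval (Sum.elim s.1 s.2) (f j) = 0).card : ℝ)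
      ≤ ((2 * (P.card * ⌊(P.card : ℝ) ^ (1 - η)⌋₊) : ℕ) : ℝ) := by exact_mod_cast h2
    _ = 2 * (P.card * (⌊(P.card : ℝ) ^ (1 - η)⌋₊ : ℝ)) := by push_cast; ring
    _ ≤ 2 * (P.card * (P.card : ℝ) ^ (1 - η)) := by
        gcongr
        exact Nat.floor_le (by positivity)
    _ ≤ (P.card : ℝ) ^ (η / 2) * (P.card * (P.card : ℝ) ^ (1 - η)) := by
        gcongr
        have h3 := ht₁ t ((le_max_right _ _).trans ht)
        exact h3.le.trans (Real.rpow_le_rpow ht0r.le htN (by positivity))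
    _ = (P.card : ℝ) ^ (2 - η / 2) := by
        have h4 : (P.card : ℝ) * (P.card : ℝ) ^ (1 - η) = (P.card : ℝ) ^ (2 - η) := by
          conv_lhs => rw [← Real.rpow_one (P.card : ℝ)]
          rw [← Real.rpow_mul hN0.le, one_mul, ← Real.rpow_add hN0]
          congr 1
          ring
        rw [h4, ← Real.rpow_add hN0]
        congr 1
        ring

end Vale.Agent.P054.T3.H226
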