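import Vale.Agent.P054.T3.H226.Num2
import Vale.Agent.P054.T3.H226.HypProd
import Vale.Agent.P054.T3.H533.Sph2
import Vale.Agent.P054.T3.H533.SepT
import Vale.Agent.P054.T3.H109.WarrenSpan

set_option autoImplicit false
set_option linter.all false

/-!
# P054 / T3 / H226: the product cells for `n = 2`

Class maps from the sign vectors of partitioning polynomials: sizes, zero class, numbers of distances,
number of the classes on a flat.
-/

namespace Vale.Agent.P054.T3.H226

open Finset Module MvPolynomial
open Vale.Agent.P054.T2.H686 (E dists)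
open Vale.Agent.P054.T3.H533 (dn Det dn_mono)
open Vale.Agent.P054.T3.H109 (sgn cell cell_sgn)

variable {n J : ℕ}

open scoped Classical in
/-- the class of a point: `none` on the zero sets, otherwise the sign vector -/
noncomputable def clf (f : Fin J → MvPolynomial (Fin (n + 1)) ℝ) (x : E n) :
    Option (Fin J → Bool) :=
  if ∃ j, eval (fun i => x i) (f j) = 0 then none else some (sgn f (fun i => x i))

theorem clf_eq_some {f : Fin J → MvPolynomial (Fin (n + 1)) ℝ} {x : E n} {c : Fin J → Bool} :
    clf f x = some c ↔ (∀ j, eval (fun i => x i) (f j) ≠ 0) ∧ sgn f (fun i => x i) = c := by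
  classical
  unfold clf
  split_ifs with h
  · constructor
    · intro h2; exact absurd h2 (by simp)
    · rintro ⟨h2, -⟩
      obtain ⟨j, hj⟩ := h
      exact absurd hj (h2 j)
  · push Not at h
    constructor
    · intro h2; exact ⟨h, by simpa using h2⟩
    · rintro ⟨-, h2⟩; rw [h2]

theorem clf_eq_none {f : Fin J → MvPolynomial (Fin (n + 1)) ℝ} {x : E n} :
    clf f x = none ↔ ∃ j, eval (fun i => x i) (f j) = 0 := by
  classical
  unfold clf
  split_ifs with h
  · exact ⟨fun _ => h, fun _ => rfl⟩
  · exact ⟨fun h2 => absurd h2 (by simp), fun h2 => absurd h2 h⟩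

/-- the number of the classes -/
theorem card_image_clf (f : Fin J → MvPolynomial (Fin (n + 1)) ℝ) (X : Finset (E n)) :
    (X.image (clf f)).card ≤ 2 ^ J + 1 := by
  classical
  refine (card_le_univ _).trans (le_of_eq ?_)
  rw [Fintype.card_option, Fintype.card_fun, Fintype.card_bool, Fintype.card_fin]

/-- the zero class -/
theorem card_none (f : Fin J → MvPolynomial (Fin (n + 1)) ℝ) (P X : Finset (E n)) (hX : X ⊆ P) :
    (X.filter fun x => clf f x = none).card ≤
      (P.filter fun p => eval (fun i => p i) (∏ j, f j) = 0).card := by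
  classical
  refine card_le_card ?_
  intro x hx
  obtain ⟨h1, h2⟩ := mem_filter.1 hx
  obtain ⟨j, hj⟩ := clf_eq_none.1 h2
  refine mem_filter.2 ⟨hX h1, ?_⟩
  rw [map_prod]
  exact prod_eq_zero (mem_univ j) hj

/-- the numbers of distances of the classes -/
theorem sum_dn_clf {m : ℕ} (a : Fin m → E n) (f : Fin J → MvPolynomial (Fin (n + 1)) ℝ)
    (X : Finset (E n)) :
    ∑ c ∈ (X.image (clf f)).erase none, dn a (X.filter fun x => clf f x = c) ≤
      ((n * (3 * ∑ j, (f j).totalDegree + 2)) ^ n + 1) * dn a X := by
  classical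
  set X' := X.filter fun x => ∀ j, eval (fun i => x i) (f j) ≠ 0 with hX'
  -- classes different from `none`
  have h1 : (X.image (clf f)).erase none ⊆ (X'.image fun x => sgn f (fun i => x i)).image some := by
    intro c hc
    obtain ⟨hc0, hc1⟩ := mem_erase.1 hc
    obtain ⟨x, hx, rfl⟩ := mem_image.1 hc1
    obtain ⟨c', hc'⟩ := Option.ne_none_iff_exists'.1 hc0
    obtain ⟨h2, h3⟩ := clf_eq_some.1 hc'
    rw [hc', mem_image]
    exact ⟨c', mem_image.2 ⟨x, mem_filter.2 ⟨hx, h2⟩, h3⟩, rfl⟩
  have h2 : ∀ c : Fin J → Bool, (X.filter fun x => clf f x = some c) =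
      X'.filter fun x => sgn f (fun i => x i) = c := by
    intro c
    ext x
    simp only [hX', mem_filter, clf_eq_some, and_assoc]
  calc ∑ c ∈ (X.image (clf f)).erase none, dn a (X.filter fun x => clf f x = c)
      ≤ ∑ c ∈ (X'.image fun x => sgn f (fun i => x i)).image some,
          dn a (X.filter fun x => clf f x = c) :=
        sum_le_sum_of_subset h1
    _ = ∑ c ∈ X'.image fun x => sgn f (fun i => x i),
          dn a (X'.filter fun x => sgn f (fun i => x i) = c) := by
        rw [sum_image (fun x _ y _ h => Option.some_injective _ h)]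
        refine sum_congr rfl fun c _ => ?_
        rw [h2 c]
    _ = ∑ i, ∑ c ∈ X'.image fun x => sgn f (fun i => x i),
          ((X'.filter fun x => sgn f (fun i => x i) = c).image fun x => dist x (a i)).card := by
        rw [sum_comm]
        refine sum_congr rfl fun c _ => ?_
        unfold dn
        refine sum_congr rfl fun i _ => ?_
        congr
    _ ≤ ∑ i, ((n * (3 * ∑ j, (f j).totalDegree + 2)) ^ n + 1) *
          (X'.image fun x => dist x (a i)).card := by
        refine sum_le_sum fun i _ => ?_
        have h3 := Vale.Agent.P054.T3.H533.sum_dist_cells f X' (a i) (fun x hx =>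
          (mem_filter.1 hx).2)
        refine le_trans (le_of_eq ?_) (h3.trans (le_of_eq ?_))
        · congr!
        · congr!
    _ = ((n * (3 * ∑ j, (f j).totalDegree + 2)) ^ n + 1) * dn a X' := by
        rw [← mul_sum]
        unfold dn
        congr!
    _ ≤ _ := Nat.mul_le_mul_left _ (dn_mono a (filter_subset _ _))

/-- the linear map to the coordinates -/
noncomputable def phi2 (n : ℕ) : (E n × E n) →ₗ[ℝ] (Fin (n + 1) ⊕ Fin (n + 1) → ℝ) where
  toFun s := Sum.elim (fun i => s.1 i) (fun i => s.2 i)
  map_add' s r := by
    funext i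
    rcases i with i | i <;> simp
  map_smul' c s := by
    funext i
    rcases i with i | i <;> simp

/-- the polynomials `f j (x)`, `g j (y)` in all the variables -/
noncomputable def app (f g : Fin J → MvPolynomial (Fin (n + 1)) ℝ) :
    Fin (J + J) → MvPolynomial (Fin (n + 1) ⊕ Fin (n + 1)) ℝ :=
  Fin.append (fun j => rename Sum.inl (f j)) (fun j => rename Sum.inr (g j))

theorem eval_app_left (f g : Fin J → MvPolynomial (Fin (n + 1)) ℝ) (s : E n × E n) (j : Fin J) :
    eval (phi2 n s) (app f g (Fin.castAdd J j)) = eval (fun i => s.1 i) (f j) := by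
  unfold app
  rw [Fin.append_left, eval_rename]
  rfl

theorem eval_app_right (f g : Fin J → MvPolynomial (Fin (n + 1)) ℝ) (s : E n × E n) (j : Fin J) :
    eval (phi2 n s) (app f g (Fin.natAdd J j)) = eval (fun i => s.2 i) (g j) := by
  unfold app
  rw [Fin.append_right, eval_rename]
  rfl

theorem sum_totalDegree_app (f g : Fin J → MvPolynomial (Fin (n + 1)) ℝ) :
    ∑ j, (app f g j).totalDegree ≤ ∑ j, (f j).totalDegree + ∑ j, (g j).totalDegree := by
  rw [Fin.sum_univ_add]
  refine Nat.add_le_add (sum_le_sum fun j _ => ?_) (sum_le_sum fun j _ => ?_)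
  · unfold app
    rw [Fin.append_left]
    exact totalDegree_rename_le _ _
  · unfold app
    rw [Fin.append_right]
    exact totalDegree_rename_le _ _

/-- **cells on a flat**: the number of the product classes of a set in a `k`-dimensional flat -/
theorem card_image_prod (f g : Fin J → MvPolynomial (Fin (n + 1)) ℝ) {k : ℕ}
    (A : Finset (E n × E n)) (hk : finrank ℝ (vectorSpan ℝ (A : Set (E n × E n))) ≤ k) :
    (A.image fun s => (clf f s.1, clf g s.2)).card ≤
      (k * (∑ j, (f j).totalDegree + ∑ j, (g j).totalDegree + 2)) ^ k + 2 * (2 ^ J + 1) := by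
  classical
  set A' := A.filter fun s => (∀ j, eval (fun i => s.1 i) (f j) ≠ 0) ∧
    ∀ j, eval (fun i => s.2 i) (g j) ≠ 0 with hA'
  let T : (Fin (J + J) → Bool) → Option (Fin J → Bool) × Option (Fin J → Bool) := fun u =>
    (some fun j => u (Fin.castAdd J j), some fun j => u (Fin.natAdd J j))
  have hsub : (A.image fun s => (clf f s.1, clf g s.2)) ⊆
      (A'.image fun s => sgn (app f g) (phi2 n s)).image T ∪
        ((univ : Finset (Option (Fin J → Bool))).image (fun c => (none, c)) ∪
          (univ : Finset (Option (Fin J → Bool))).image (fun c => (c, none))) := by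
    intro c hc
    obtain ⟨s, hs, rfl⟩ := mem_image.1 hc
    rw [mem_union, mem_union]
    rcases h1 : clf f s.1 with _ | c1
    · right; left
      exact mem_image.2 ⟨clf g s.2, mem_univ _, rfl⟩
    · rcases h2 : clf g s.2 with _ | c2
      · right; right
        exact mem_image.2 ⟨some c1, mem_univ _, rfl⟩
      · left
        obtain ⟨h3, h4⟩ := clf_eq_some.1 h1
        obtain ⟨h5, h6⟩ := clf_eq_some.1 h2
        refine mem_image.2 ⟨sgn (app f g) (phi2 n s), mem_image.2 ⟨s, mem_filter.2 ⟨hs, h3, h5⟩,
          rfl⟩, ?_⟩
        simp only [T]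
        refine Prod.ext ?_ ?_
        · show some _ = some _
          congr 1
          rw [← h4]
          funext j
          simp only [sgn, eval_app_left]
        · show some _ = some _
          congr 1
          rw [← h6]
          funext j
          simp only [sgn, eval_app_right]
  have h1 : (A'.image fun s => sgn (app f g) (phi2 n s)).card ≤
      (k * (∑ j, (app f g j).totalDegree + 2)) ^ k := by
    have h := Vale.Agent.P054.T3.H109.card_sgn_span_map (k := k) (app f g) (phi2 n) A' ?_ ?_
    · refine le_trans (le_of_eq ?_) h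
      congr!
    · refine le_trans ?_ hk
      exact Submodule.finrank_mono (vectorSpan_mono ℝ (by
        intro v hv
        rw [mem_coe] at hv ⊢
        exact (mem_filter.1 hv).1))
    · intro s hs j
      obtain ⟨-, h2, h3⟩ := mem_filter.1 hs
      refine Fin.addCases (fun j => ?_) (fun j => ?_) j
      · rw [eval_app_left]; exact h2 j
      · rw [eval_app_right]; exact h3 j
  have h2 : ((univ : Finset (Option (Fin J → Bool)))).card = 2 ^ J + 1 := by
    rw [card_univ, Fintype.card_option, Fintype.card_fun, Fintype.card_bool, Fintype.card_fin]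
  have h3 := card_le_card hsub
  have h4 := card_union_le ((A'.image fun s => sgn (app f g) (phi2 n s)).image T)
    ((univ : Finset (Option (Fin J → Bool))).image (fun c => ((none : Option (Fin J → Bool)), c)) ∪
      (univ : Finset (Option (Fin J → Bool))).image
        (fun c => (c, (none : Option (Fin J → Bool)))))
  have h5 := card_union_le
    ((univ : Finset (Option (Fin J → Bool))).image (fun c => ((none : Option (Fin J → Bool)), c)))
    ((univ : Finset (Option (Fin J → Bool))).image
        (fun c => (c, (none : Option (Fin J → Bool)))))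
  have h6 : ((A'.image fun s => sgn (app f g) (phi2 n s)).image T).card ≤ _ := card_image_le
  have h7 : ((univ : Finset (Option (Fin J → Bool))).image
    (fun c => ((none : Option (Fin J → Bool)), c))).card ≤ _ := card_image_le
  have h8 : ((univ : Finset (Option (Fin J → Bool))).image
    (fun c => (c, (none : Option (Fin J → Bool))))).card ≤ _ := card_image_le
  have h9 : (k * (∑ j, (app f g j).totalDegree + 2)) ^ k ≤
      (k * (∑ j, (f j).totalDegree + ∑ j, (g j).totalDegree + 2)) ^ k := by
    refine Nat.pow_le_pow_left (Nat.mul_le_mul_left _ (Nat.add_le_add_right ?_ _)) _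
    exact sum_totalDegree_app f g
  rw [h2] at h7 h8
  omega

/-- a partition of `X ⊂ ℝ³` of level `m` -/
theorem exists_part3 (X : Finset (E 2)) (m : ℕ) :
    ∃ f : Fin (3 * m) → MvPolynomial (Fin 3) ℝ, (∀ j, f j ≠ 0) ∧
      ∑ j, (f j).totalDegree ≤ 18 * 2 ^ m ∧
      ∀ c, (X.filter fun x => clf (n := 2) f x = some c).card * (2 ^ m) ^ 3 ≤ X.card := by
  classical
  have h := Vale.Agent.P054.T3.H109.partition_exists (σ := Fin 3) (by simp) X
    (fun x : E 2 => fun i => x i) m
  rw [Fintype.card_fin] at h
  obtain ⟨f, hf0, hfd, hfc⟩ := h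
  refine ⟨f, hf0, ?_, ?_⟩
  · exact hfd.trans (le_of_eq (by norm_num))
  · intro c
    have h1 := hfc c
    have h2 : (X.filter fun x => clf (n := 2) f x = some c).card ≤
        (X.filter fun x => cell f c (fun i => x i)).card := by
      refine card_le_card ?_
      intro x hx
      obtain ⟨h3, h4⟩ := mem_filter.1 hx
      obtain ⟨h5, h6⟩ := clf_eq_some.1 h4
      refine mem_filter.2 ⟨h3, ?_⟩
      rw [← h6]
      exact cell_sgn h5
    calc (X.filter fun x => clf (n := 2) f x = some c).card * (2 ^ m) ^ 3
        ≤ (X.filter fun x => cell f c (fun i => x i)).card * (2 ^ m) ^ 3 :=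
          Nat.mul_le_mul_right _ h2
      _ = 2 ^ (3 * m) * (X.filter fun x => cell f c (fun i => x i)).card := by
          rw [mul_comm, ← pow_mul, mul_comm m 3]
      _ ≤ X.card := by convert h1 using 2

end Vale.Agent.P054.T3.H226
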