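import Mathlib

set_option autoImplicit false
set_option linter.all false

/-!
# P054 / T3 / H226: Forster's radial isotropic position

`v : ι → κ → ℝ` finitely many vectors, `N = card ι`, `h = card κ`.  If every hyperplane contains
fewer than `N / h` of the vectors, there are weights `c i > 0` such that, with
`M = ∑ c i • v i (v i)ᵀ`, `c i * (v i)ᵀ M⁻¹ (v i) = h / N` for all `i`.
-/

namespace Vale.Agent.P054.T3.H226

open Finset Matrix Module

variable {ι κ : Type*} [Fintype κ] [DecidableEq κ]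

/-- `∑_{i ∈ T} c i • v i (v i)ᵀ` -/
noncomputable def Mf (v : ι → κ → ℝ) (T : Finset ι) (c : ι → ℝ) : Matrix κ κ ℝ :=
  ∑ i ∈ T, c i • vecMulVec (v i) (v i)

theorem vmv_mulVec (w x : κ → ℝ) : vecMulVec w w *ᵥ x = (w ⬝ᵥ x) • w := by
  funext a
  simp only [mulVec, vecMulVec_apply, dotProduct, Pi.smul_apply, smul_eq_mul, Finset.sum_mul]
  exact Finset.sum_congr rfl fun b _ => by ring

theorem Mf_mulVec (v : ι → κ → ℝ) (T : Finset ι) (c : ι → ℝ) (x : κ → ℝ) :
    Mf v T c *ᵥ x = ∑ i ∈ T, (c i * (v i ⬝ᵥ x)) • v i := by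
  unfold Mf
  rw [Matrix.sum_mulVec]
  refine Finset.sum_congr rfl fun i _ => ?_
  rw [Matrix.smul_mulVec, vmv_mulVec, smul_smul]

theorem Mf_isHermitian (v : ι → κ → ℝ) (T : Finset ι) (c : ι → ℝ) : (Mf v T c).IsHermitian := by
  unfold Mf Matrix.IsHermitian
  rw [Matrix.conjTranspose_sum]
  refine Finset.sum_congr rfl fun i _ => ?_
  ext a b
  simp [vecMulVec_apply, mul_comm]

theorem dot_Mf (v : ι → κ → ℝ) (T : Finset ι) (c : ι → ℝ) (x y : κ → ℝ) :
    x ⬝ᵥ (Mf v T c *ᵥ y) = ∑ i ∈ T, c i * (v i ⬝ᵥ x) * (v i ⬝ᵥ y) := by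
  rw [Mf_mulVec, dotProduct_sum]
  refine Finset.sum_congr rfl fun i _ => ?_
  rw [dotProduct_smul, smul_eq_mul, dotProduct_comm x]
  ring

theorem Mf_posDef (v : ι → κ → ℝ) (T : Finset ι) (c : ι → ℝ) (hc : ∀ i ∈ T, 0 < c i)
    (hs : ∀ x : κ → ℝ, x ≠ 0 → ∃ i ∈ T, v i ⬝ᵥ x ≠ 0) : (Mf v T c).PosDef := by
  refine Matrix.PosDef.of_dotProduct_mulVec_pos (Mf_isHermitian v T c) fun x hx => ?_
  have h1 : star x = x := by ext; simp
  rw [h1, dot_Mf]
  obtain ⟨i, hi, hix⟩ := hs x hx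
  refine Finset.sum_pos' (fun j hj => ?_) ⟨i, hi, ?_⟩
  · have := hc j hj
    rw [mul_assoc]
    exact mul_nonneg this.le (mul_self_nonneg _)
  · rw [mul_assoc]
    exact mul_pos (hc i hi) (mul_self_pos.2 hix)

/-- the matrix determinant lemma -/
theorem det_add_vmv {A : Matrix κ κ ℝ} (hA : A.PosDef) (t : ℝ) (w : κ → ℝ) :
    (A + t • vecMulVec w w).det = A.det * (1 + t * (w ⬝ᵥ (A⁻¹ *ᵥ w))) := by
  have hu : IsUnit A.det := hA.det_pos.ne'.isUnit
  have h1 := Matrix.det_add_replicateCol_mul_replicateRow (ι := Unit) hu (t • w) w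
  have h2 : replicateCol Unit (t • w) * replicateRow Unit w = t • vecMulVec w w := by
    rw [← vecMulVec_eq]
    ext a b
    simp [vecMulVec_apply, mul_assoc]
  rw [h2] at h1
  rw [h1]
  congr 1
  rw [Matrix.det_unique]
  simp only [Matrix.add_apply, Matrix.one_apply_eq]
  congr 1
  simp only [Matrix.mul_apply, replicateRow_apply, replicateCol_apply, mulVec, dotProduct,
    Pi.smul_apply, smul_eq_mul, Finset.sum_mul, Finset.mul_sum]
  rw [Finset.sum_comm]
  exact Finset.sum_congr rfl fun a _ => Finset.sum_congr rfl fun b _ => by ring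

theorem quad_inv_nonneg {A : Matrix κ κ ℝ} (hA : A.PosDef) (w : κ → ℝ) :
    0 ≤ w ⬝ᵥ (A⁻¹ *ᵥ w) := by
  have h := hA.inv.posSemidef.dotProduct_mulVec_nonneg w
  have h1 : star w = w := by ext; simp
  rwa [h1] at h

theorem quad_inv_pos {A : Matrix κ κ ℝ} (hA : A.PosDef) {w : κ → ℝ} (hw : w ≠ 0) :
    0 < w ⬝ᵥ (A⁻¹ *ᵥ w) := by
  have h := hA.inv.dotProduct_mulVec_pos hw
  have h1 : star w = w := by ext; simp
  rwa [h1] at h

theorem add_vmv_posDef {A : Matrix κ κ ℝ} (hA : A.PosDef) {t : ℝ} (ht : 0 ≤ t) (w : κ → ℝ) :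
    (A + t • vecMulVec w w).PosDef := by
  refine hA.add_posSemidef ?_
  have h1 : (vecMulVec w w).PosSemidef := by
    have := Matrix.posSemidef_vecMulVec_self_star w
    have h2 : star w = w := by ext; simp
    rwa [h2] at this
  exact h1.smul ht

theorem det_le_det_add {A : Matrix κ κ ℝ} (hA : A.PosDef) (v : ι → κ → ℝ) (T : Finset ι)
    (t : ι → ℝ) (ht : ∀ i ∈ T, 0 ≤ t i) :
    A.det ≤ (A + Mf v T t).det ∧ (A + Mf v T t).PosDef := by
  classical
  induction T using Finset.induction_on with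
  | empty => simp [Mf, hA]
  | insert i T hi ih =>
    obtain ⟨h1, h2⟩ := ih fun j hj => ht j (Finset.mem_insert_of_mem hj)
    have h3 : A + Mf v (insert i T) t = (A + Mf v T t) + t i • vecMulVec (v i) (v i) := by
      unfold Mf
      rw [Finset.sum_insert hi]
      abel
    have h4 := ht i (Finset.mem_insert_self _ _)
    rw [h3]
    refine ⟨?_, add_vmv_posDef h2 h4 _⟩
    rw [det_add_vmv h2]
    have h5 := quad_inv_nonneg h2 (v i)
    have h6 := h2.det_pos
    nlinarith [mul_nonneg h4 h5, mul_nonneg h6.le (mul_nonneg h4 h5)]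


/-- `det (∑_J v v^T) * min 1 (v₀ᵀ (∑_J v v^T)⁻¹ v₀)` -/
noncomputable def dl (v : ι → κ → ℝ) (J : Finset ι) (i₀ : ι) : ℝ :=
  (Mf v J fun _ => 1).det * min 1 (v i₀ ⬝ᵥ ((Mf v J fun _ => 1)⁻¹ *ᵥ v i₀))

theorem Mf_const (v : ι → κ → ℝ) (J : Finset ι) (τ : ℝ) :
    (Mf v J fun _ => τ) = τ • Mf v J fun _ => 1 := by
  unfold Mf
  rw [Finset.smul_sum]
  refine Finset.sum_congr rfl fun i _ => ?_
  rw [one_smul]

theorem det_lower [Nonempty κ] [Fintype ι] (v : ι → κ → ℝ) (J : Finset ι) (i₀ : ι)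
    (hi₀ : i₀ ∈ J) (hJ : ∀ x : κ → ℝ, x ≠ 0 → ∃ i ∈ J, v i ⬝ᵥ x ≠ 0) (c : ι → ℝ) (τ : ℝ)
    (hτ : 0 < τ) (hc : ∀ i, 0 < c i) (hcJ : ∀ i ∈ J, τ ≤ c i) :
    c i₀ * τ ^ (Fintype.card κ - 1) * dl v J i₀ ≤ (Mf v univ c).det := by
  classical
  set M₁ := Mf v J fun _ => (1 : ℝ) with hM₁
  have hM₁p : M₁.PosDef := Mf_posDef v J _ (fun _ _ => one_pos) hJ
  set A₀ := Mf v J fun _ => τ with hA₀
  have hA₀p : A₀.PosDef := Mf_posDef v J _ (fun _ _ => hτ) hJ
  have hA₀e : A₀ = τ • M₁ := Mf_const v J τ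
  have hdA₀ : A₀.det = τ ^ Fintype.card κ * M₁.det := by rw [hA₀e, Matrix.det_smul]
  have hinv : A₀⁻¹ = τ⁻¹ • M₁⁻¹ := by
    rw [hA₀e]
    have hu : IsUnit M₁.det := hM₁p.det_pos.ne'.isUnit
    refine Matrix.inv_eq_right_inv ?_
    rw [Matrix.smul_mul, Matrix.mul_smul, smul_smul, mul_inv_cancel₀ hτ.ne', one_smul,
      Matrix.mul_nonsing_inv _ hu]
  have h0 : 0 ≤ c i₀ - τ := sub_nonneg.2 (hcJ i₀ hi₀)
  set A := A₀ + (c i₀ - τ) • vecMulVec (v i₀) (v i₀) with hA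
  have hAp : A.PosDef := add_vmv_posDef hA₀p h0 _
  set t : ι → ℝ := fun i => if i ∈ J then (if i = i₀ then 0 else c i - τ) else c i with ht
  have ht0 : ∀ i ∈ (univ : Finset ι), 0 ≤ t i := by
    intro i _
    rw [ht]
    by_cases h1 : i ∈ J
    · by_cases h2 : i = i₀
      · simp only [if_pos h1, if_pos h2]
        exact le_rfl
      · simp only [if_pos h1, if_neg h2]
        exact sub_nonneg.2 (hcJ i h1)
    · simp only [if_neg h1]
      exact (hc i).le
  have hsum : Mf v univ c = A + Mf v univ t := by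
    have e1 : A₀ = Mf v univ fun i => if i ∈ J then τ else 0 := by
      rw [hA₀]
      unfold Mf
      rw [← Finset.sum_filter_add_sum_filter_not univ (fun i => i ∈ J)]
      rw [Finset.filter_mem_eq_inter, Finset.univ_inter]
      have z : ∑ x ∈ filter (fun i => i ∉ J) univ,
          (if x ∈ J then τ else 0) • vecMulVec (v x) (v x) = 0 := by
        refine Finset.sum_eq_zero fun i hi => ?_
        rw [if_neg (Finset.mem_filter.1 hi).2, zero_smul]
      rw [z, add_zero]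
      refine Finset.sum_congr rfl fun i hi => ?_
      simp only [if_pos hi]
    have e2 : (c i₀ - τ) • vecMulVec (v i₀) (v i₀) =
        Mf v univ fun i => if i = i₀ then c i₀ - τ else 0 := by
      unfold Mf
      rw [Finset.sum_eq_single i₀]
      · simp only [if_true]
      · intro b _ hb
        simp only [if_neg hb, zero_smul]
      · intro h
        exact absurd (Finset.mem_univ _) h
    rw [hA, e1, e2]
    unfold Mf
    rw [← Finset.sum_add_distrib, ← Finset.sum_add_distrib]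
    refine Finset.sum_congr rfl fun i _ => ?_
    rw [← add_smul, ← add_smul]
    congr 1
    rw [ht]
    by_cases h1 : i ∈ J
    · by_cases h2 : i = i₀
      · subst h2
        simp [h1]
      · simp [h1, h2]
    · have h2 : i ≠ i₀ := fun h => h1 (h ▸ hi₀)
      simp [h1, h2]
  have hdet := (det_le_det_add hAp v univ t ht0).1
  rw [← hsum] at hdet
  refine le_trans ?_ hdet
  rw [hA, det_add_vmv hA₀p, hdA₀, hinv]
  have hp0 := quad_inv_nonneg hM₁p (v i₀)
  have e3 : v i₀ ⬝ᵥ ((τ⁻¹ • M₁⁻¹) *ᵥ v i₀) = τ⁻¹ * (v i₀ ⬝ᵥ (M₁⁻¹ *ᵥ v i₀)) := by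
    rw [Matrix.smul_mulVec, dotProduct_smul, smul_eq_mul]
  rw [e3]
  unfold dl
  rw [← hM₁]
  set p := v i₀ ⬝ᵥ (M₁⁻¹ *ᵥ v i₀) with hp
  have hd := hM₁p.det_pos
  have hk : τ ^ Fintype.card κ = τ ^ (Fintype.card κ - 1) * τ := by
    rw [← pow_succ]
    congr 1
    have : 0 < Fintype.card κ := Fintype.card_pos
    omega
  rw [hk]
  have key : c i₀ * min 1 p ≤ τ * (1 + (c i₀ - τ) * (τ⁻¹ * p)) := by
    have e4 : τ * (1 + (c i₀ - τ) * (τ⁻¹ * p)) = τ + (c i₀ - τ) * p := by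
      field_simp
    rw [e4]
    rcases le_total 1 p with h1 | h1
    · rw [min_eq_left h1]
      nlinarith
    · rw [min_eq_right h1]
      nlinarith
  have hτk : 0 ≤ τ ^ (Fintype.card κ - 1) * M₁.det := by positivity
  calc c i₀ * τ ^ (Fintype.card κ - 1) * (M₁.det * min 1 p)
      = (τ ^ (Fintype.card κ - 1) * M₁.det) * (c i₀ * min 1 p) := by ring
    _ ≤ (τ ^ (Fintype.card κ - 1) * M₁.det) * (τ * (1 + (c i₀ - τ) * (τ⁻¹ * p))) :=
        mul_le_mul_of_nonneg_left key hτk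
    _ = _ := by ring

theorem dl_pos (v : ι → κ → ℝ) (J : Finset ι) (i₀ : ι) (h0 : v i₀ ≠ 0)
    (hJ : ∀ x : κ → ℝ, x ≠ 0 → ∃ i ∈ J, v i ⬝ᵥ x ≠ 0) : 0 < dl v J i₀ := by
  have h := Mf_posDef v J (fun _ => (1 : ℝ)) (fun _ _ => one_pos) hJ
  exact mul_pos h.det_pos (lt_min one_pos (quad_inv_pos h h0))

/-! ### numbers -/

theorem exists_thr {ι : Type*} [Fintype ι] [Nonempty ι] [DecidableEq ι] (c : ι → ℝ) {m : ℕ}
    (hm : m + 1 ≤ Fintype.card ι) :
    ∃ j, m + 1 ≤ (univ.filter fun i => c j ≤ c i).card ∧ (univ.filter fun i => c j < c i).card ≤ m := by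
  classical
  set S : Finset ι := univ.filter fun j => m + 1 ≤ (univ.filter fun i => c j ≤ c i).card with hS
  have hne : S.Nonempty := by
    obtain ⟨i₁, hi₁⟩ := Finite.exists_min c
    refine ⟨i₁, Finset.mem_filter.2 ⟨Finset.mem_univ _, ?_⟩⟩
    rw [Finset.filter_true_of_mem fun i _ => hi₁ i, Finset.card_univ]
    exact hm
  obtain ⟨j, hj, hmax⟩ := Finset.exists_max_image S c hne
  refine ⟨j, (Finset.mem_filter.1 hj).2, ?_⟩
  by_contra hcon
  push Not at hcon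
  set G : Finset ι := univ.filter fun i => c j < c i with hG
  have hGne : G.Nonempty := Finset.card_pos.1 (by omega)
  obtain ⟨j', hj', hmin⟩ := Finset.exists_min_image G c hGne
  have h1 : c j < c j' := (Finset.mem_filter.1 hj').2
  have h2 : G ⊆ univ.filter fun i => c j' ≤ c i := fun i hi =>
    Finset.mem_filter.2 ⟨Finset.mem_univ _, hmin i hi⟩
  have h3 : j' ∈ S := Finset.mem_filter.2 ⟨Finset.mem_univ _, by
    have := Finset.card_le_card h2
    omega⟩
  exact absurd (hmax j' h3) (not_le.2 h1)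

theorem prod_le_thr {ι : Type*} [Fintype ι] [DecidableEq ι] (c : ι → ℝ) (hc : ∀ i, 0 < c i) {τ C : ℝ}
    (hτ : 0 < τ) {m : ℕ} (hm : m + 1 ≤ Fintype.card ι)
    (hg : (univ.filter fun i => τ < c i).card ≤ m) (hC : ∀ i, c i ≤ C) (hτC : τ ≤ C)
    {i₁ : ι} (hi₁ : c i₁ ≤ τ) : ∏ i, c i ≤ C ^ m * τ ^ (Fintype.card ι - m - 1) * c i₁ := by
  classical
  set G : Finset ι := univ.filter fun i => τ < c i with hG
  have hi₁G : i₁ ∉ G := fun h => absurd (Finset.mem_filter.1 h).2 (not_lt.2 hi₁)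
  have hC0 : 0 < C := hτ.trans_le hτC
  have e1 : ∏ i, c i = c i₁ * ∏ i ∈ univ.erase i₁, c i := (Finset.mul_prod_erase _ _ (mem_univ _)).symm
  have e2 : ∏ i ∈ univ.erase i₁, c i = (∏ i ∈ G, c i) * ∏ i ∈ (univ.erase i₁) \ G, c i := by
    rw [mul_comm, Finset.prod_sdiff]
    intro i hi
    exact Finset.mem_erase.2 ⟨fun h => hi₁G (h ▸ hi), mem_univ _⟩
  have h1 : ∏ i ∈ G, c i ≤ C ^ G.card := by
    rw [← Finset.prod_const]
    exact Finset.prod_le_prod (fun i _ => (hc i).le) fun i _ => hC i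
  have h2 : ∏ i ∈ (univ.erase i₁) \ G, c i ≤ τ ^ ((univ.erase i₁) \ G).card := by
    rw [← Finset.prod_const]
    refine Finset.prod_le_prod (fun i _ => (hc i).le) fun i hi => ?_
    by_contra hcon
    push Not at hcon
    exact (Finset.mem_sdiff.1 hi).2 (Finset.mem_filter.2 ⟨mem_univ _, hcon⟩)
  have hcard : ((univ.erase i₁) \ G).card = Fintype.card ι - 1 - G.card := by
    rw [Finset.card_sdiff_of_subset, Finset.card_erase_of_mem (mem_univ _), Finset.card_univ]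
    intro i hi
    exact Finset.mem_erase.2 ⟨fun h => hi₁G (h ▸ hi), mem_univ _⟩
  rw [hcard] at h2
  have h3 : C ^ G.card * τ ^ (Fintype.card ι - 1 - G.card) ≤
      C ^ m * τ ^ (Fintype.card ι - m - 1) := by
    have e3 : Fintype.card ι - 1 - G.card = (m - G.card) + (Fintype.card ι - m - 1) := by omega
    have e4 : m = G.card + (m - G.card) := by omega
    rw [e3, pow_add]
    conv_rhs => rw [e4, pow_add]
    have h4 : τ ^ (m - G.card) ≤ C ^ (m - G.card) := pow_le_pow_left₀ hτ.le hτC _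
    have e5 : Fintype.card ι - (G.card + (m - G.card)) - 1 = Fintype.card ι - m - 1 := by omega
    rw [e5]
    calc C ^ G.card * (τ ^ (m - G.card) * τ ^ (Fintype.card ι - m - 1))
        = (C ^ G.card * τ ^ (Fintype.card ι - m - 1)) * τ ^ (m - G.card) := by ring
      _ ≤ (C ^ G.card * τ ^ (Fintype.card ι - m - 1)) * C ^ (m - G.card) :=
          mul_le_mul_of_nonneg_left h4 (by positivity)
      _ = _ := by ring
  rw [e1, e2]
  have h5 : (∏ i ∈ G, c i) * ∏ i ∈ (univ.erase i₁) \ G, c i ≤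
      C ^ m * τ ^ (Fintype.card ι - m - 1) :=
    (mul_le_mul h1 h2 (Finset.prod_nonneg fun i _ => (hc i).le) (by positivity)).trans h3
  calc c i₁ * ((∏ i ∈ G, c i) * ∏ i ∈ (univ.erase i₁) \ G, c i)
      ≤ c i₁ * (C ^ m * τ ^ (Fintype.card ι - m - 1)) :=
        mul_le_mul_of_nonneg_left h5 (hc i₁).le
    _ = _ := by ring

theorem num_ineq {N h m : ℕ} (hh : 1 ≤ h) (h1 : h * m + 1 ≤ N) (h2 : N ≤ h * (m + 1))
    {C τ b : ℝ} (hb : 0 < b) (hbτ : b ≤ τ) (hτC : τ ≤ C) :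
    C * (C ^ m * τ ^ (N - m - 1) * b) ^ h ≤ (C * τ ^ (h - 1)) ^ N * b := by
  have hτ : 0 < τ := hb.trans_le hbτ
  have hC : 0 < C := hτ.trans_le hτC
  obtain ⟨r, hr⟩ := Nat.exists_eq_add_of_le h1
  obtain ⟨q, hq⟩ := Nat.exists_eq_add_of_le h2
  have hm : m + 1 ≤ N := by nlinarith
  have hrq : h = 1 + r + q := by
    have : h * (m + 1) = h * m + h := by ring
    omega
  have e1 : (N - m - 1) * h + q = (h - 1) * N := by
    obtain ⟨N', hN'⟩ := Nat.exists_eq_add_of_le hm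
    obtain ⟨h', hh'⟩ := Nat.exists_eq_add_of_le hh
    have e2 : N - m - 1 = N' := by omega
    have e3 : h - 1 = h' := by omega
    rw [e2, e3]
    subst hh'
    have e4 : (1 + h') * (m + 1) = N + q := hq
    have e5 : N = m + 1 + N' := hN'
    nlinarith
  have e6 : (C * τ ^ (h - 1)) ^ N * b =
      (C * C ^ (m * h) * τ ^ ((N - m - 1) * h) * b) * (C ^ r * τ ^ q) := by
    rw [mul_pow, ← pow_mul, ← e1, pow_add τ]
    have e7 : C ^ N = C * C ^ (m * h) * C ^ r := by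
      rw [← pow_succ', ← pow_add]
      congr 1
      rw [hr]
      ring
    rw [e7]
    ring
  have e8 : C * (C ^ m * τ ^ (N - m - 1) * b) ^ h =
      (C * C ^ (m * h) * τ ^ ((N - m - 1) * h) * b) * (b ^ r * b ^ q) := by
    rw [mul_pow, mul_pow, ← pow_mul, ← pow_mul]
    have e9 : b ^ h = b * (b ^ r * b ^ q) := by
      rw [← pow_add, ← pow_succ']
      congr 1
      omega
    rw [e9]
    ring
  rw [e6, e8]
  refine mul_le_mul_of_nonneg_left ?_ (by positivity)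
  exact mul_le_mul (pow_le_pow_left₀ hb.le (hbτ.trans hτC) _) (pow_le_pow_left₀ hb.le hbτ _)
    (by positivity) (by positivity)

theorem coercive [Fintype ι] [Nonempty ι] [Nonempty κ] (v : ι → κ → ℝ) (h0 : ∀ i, v i ≠ 0)
    (hv : ∀ x : κ → ℝ, x ≠ 0 →
      Fintype.card κ * (univ.filter fun i => v i ⬝ᵥ x = 0).card < Fintype.card ι) :
    ∃ δ : ℝ, 0 < δ ∧ ∀ c : ι → ℝ, (∀ i, 0 < c i) → ∀ i₀ i₁, (∀ i, c i ≤ c i₀) →
      (∀ i, c i₁ ≤ c i) →
      δ * (c i₀ * (∏ i, c i) ^ Fintype.card κ) ≤ (Mf v univ c).det ^ Fintype.card ι * c i₁ := by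
  classical
  set N := Fintype.card ι with hN
  set h := Fintype.card κ with hh
  have hh1 : 1 ≤ h := Fintype.card_pos
  have hN1 : 1 ≤ N := Fintype.card_pos
  let good : Finset ι → ι → Prop := fun J i => i ∈ J ∧ ∀ x : κ → ℝ, x ≠ 0 → ∃ i ∈ J, v i ⬝ᵥ x ≠ 0
  let f : Finset ι × ι → ℝ := fun p => if good p.1 p.2 then dl v p.1 p.2 else 1
  have hf : ∀ p, 0 < f p := by
    intro p
    simp only [f]
    split_ifs with hp
    · exact dl_pos v p.1 p.2 (h0 _) hp.2
    · exact one_pos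
  obtain ⟨p₀, hp₀⟩ := Finite.exists_min f
  set δ₀ := f p₀ with hδ₀
  have hδ₀p : 0 < δ₀ := hf p₀
  have hδ : ∀ J i, good J i → δ₀ ≤ dl v J i := by
    intro J i hg
    have h1 := hp₀ (J, i)
    simp only [f] at h1
    rw [if_pos hg] at h1
    exact h1
  refine ⟨δ₀ ^ N, by positivity, fun c hc i₀ i₁ hi₀ hi₁ => ?_⟩
  set m := (N - 1) / h with hm
  have hm1 : h * m + 1 ≤ N := by
    have h1 : h * m ≤ N - 1 := Nat.mul_div_le (N - 1) h
    omega
  have hm2 : N ≤ h * (m + 1) := by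
    have h1 : N - 1 < h * (m + 1) := Nat.lt_mul_div_succ (N - 1) (show 0 < h by omega)
    omega
  have hmN : m + 1 ≤ N := by nlinarith
  obtain ⟨j, hj1, hj2⟩ := exists_thr c hmN
  set J : Finset ι := univ.filter fun i => c j ≤ c i with hJ
  have hspan : ∀ x : κ → ℝ, x ≠ 0 → ∃ i ∈ J, v i ⬝ᵥ x ≠ 0 := by
    intro x hx
    by_contra hcon
    push Not at hcon
    have h1 : J ⊆ univ.filter fun i => v i ⬝ᵥ x = 0 := fun i hi =>
      Finset.mem_filter.2 ⟨mem_univ _, hcon i hi⟩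
    have h2 := Finset.card_le_card h1
    have h3 := hv x hx
    have h4 : h * (m + 1) ≤ h * (univ.filter fun i => v i ⬝ᵥ x = 0).card :=
      Nat.mul_le_mul_left _ (hj1.trans h2)
    omega
  have hgood : good J i₀ := ⟨Finset.mem_filter.2 ⟨mem_univ _, hi₀ j⟩, hspan⟩
  have h5 := det_lower v J i₀ hgood.1 hspan c (c j) (hc j) hc fun i hi => (Finset.mem_filter.1 hi).2
  have h6 : c i₀ * c j ^ (h - 1) * δ₀ ≤ (Mf v univ c).det :=
    (mul_le_mul_of_nonneg_left (hδ J i₀ hgood) (by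
      have := hc i₀; have := hc j; positivity)).trans h5
  have h7 : (c i₀ * c j ^ (h - 1) * δ₀) ^ N ≤ (Mf v univ c).det ^ N :=
    pow_le_pow_left₀ (by have := hc i₀; have := hc j; positivity) h6 _
  have h8 := prod_le_thr c hc (hc j) hmN hj2 hi₀ (hi₀ j) (hi₁ j)
  have h9 : (∏ i, c i) ^ h ≤ (c i₀ ^ m * c j ^ (N - m - 1) * c i₁) ^ h :=
    pow_le_pow_left₀ (Finset.prod_nonneg fun i _ => (hc i).le) h8 _
  have h10 := num_ineq hh1 hm1 hm2 (hc i₁) (hi₁ j) (hi₀ j)
  have hci₀ := hc i₀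
  have hci₁ := hc i₁
  calc δ₀ ^ N * (c i₀ * (∏ i, c i) ^ h)
      ≤ δ₀ ^ N * (c i₀ * (c i₀ ^ m * c j ^ (N - m - 1) * c i₁) ^ h) := by gcongr
    _ ≤ δ₀ ^ N * ((c i₀ * c j ^ (h - 1)) ^ N * c i₁) := by gcongr
    _ = (c i₀ * c j ^ (h - 1) * δ₀) ^ N * c i₁ := by ring
    _ ≤ (Mf v univ c).det ^ N * c i₁ := by gcongr

/-- the function to be minimised -/
noncomputable def psi [Fintype ι] (v : ι → κ → ℝ) (c : ι → ℝ) : ℝ :=
  (Mf v univ c).det ^ Fintype.card ι / (∏ i, c i) ^ Fintype.card κ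

theorem Mf_smul [Fintype ι] (v : ι → κ → ℝ) (c : ι → ℝ) (s : ℝ) :
    Mf v univ (fun i => s * c i) = s • Mf v univ c := by
  unfold Mf
  rw [Finset.smul_sum]
  exact Finset.sum_congr rfl fun i _ => by rw [smul_smul]

theorem psi_smul [Fintype ι] (v : ι → κ → ℝ) (c : ι → ℝ) {s : ℝ} (hs : 0 < s) :
    psi v (fun i => s * c i) = psi v c := by
  unfold psi
  rw [Mf_smul, Matrix.det_smul, Finset.prod_mul_distrib, Finset.prod_const, Finset.card_univ,
    mul_pow, mul_pow, ← pow_mul, ← pow_mul, mul_comm (Fintype.card ι) (Fintype.card κ)]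
  exact mul_div_mul_left _ _ (pow_pos hs _).ne'

theorem continuous_det_Mf [Fintype ι] (v : ι → κ → ℝ) :
    Continuous fun c : ι → ℝ => (Mf v univ c).det := by
  refine Continuous.matrix_det ?_
  unfold Mf
  refine continuous_finsetSum _ fun i _ => ?_
  exact (continuous_apply i).smul continuous_const

theorem exists_minimiser [Fintype ι] [Nonempty ι] [Nonempty κ] (v : ι → κ → ℝ)
    (h0 : ∀ i, v i ≠ 0) (hv : ∀ x : κ → ℝ, x ≠ 0 →
      Fintype.card κ * (univ.filter fun i => v i ⬝ᵥ x = 0).card < Fintype.card ι) :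
    ∃ c : ι → ℝ, (∀ i, 0 < c i) ∧ ∀ c' : ι → ℝ, (∀ i, 0 < c' i) → psi v c ≤ psi v c' := by
  classical
  obtain ⟨δ, hδ, hco⟩ := coercive v h0 hv
  set R : ℝ := max 1 (psi v (fun _ => 1) / δ) with hR
  have hR1 : 1 ≤ R := le_max_left _ _
  have hR0 : 0 < R := by linarith
  set Kc : Set (ι → ℝ) := Set.Icc (fun _ => 1 / R) (fun _ => 1) with hKc
  have hcomp : IsCompact Kc := isCompact_Icc
  have h1K : (fun _ => (1 : ℝ)) ∈ Kc := by
    refine ⟨fun i => ?_, fun i => le_rfl⟩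
    show 1 / R ≤ 1
    rw [div_le_one hR0]
    exact hR1
  have hpos : ∀ c ∈ Kc, ∀ i, 0 < c i := by
    intro c hc i
    have h1 : 1 / R ≤ c i := hc.1 i
    have h2 : 0 < 1 / R := by positivity
    linarith
  have hcont : ContinuousOn (psi v) Kc := by
    unfold psi
    refine ContinuousOn.div ?_ ?_ ?_
    · exact ((continuous_det_Mf v).pow _).continuousOn
    · exact ((continuous_finsetProd _ fun i _ => continuous_apply i).pow _).continuousOn
    · intro c hc
      have := hpos c hc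
      exact pow_ne_zero _ (Finset.prod_pos fun i _ => this i).ne'
  obtain ⟨c, hcK, hmin⟩ := hcomp.exists_isMinOn ⟨_, h1K⟩ hcont
  refine ⟨c, hpos c hcK, fun c' hc' => ?_⟩
  obtain ⟨i₀, hi₀⟩ := Finite.exists_max c'
  obtain ⟨i₁, hi₁⟩ := Finite.exists_min c'
  have hC : 0 < c' i₀ := hc' i₀
  by_cases hcase : 1 / R ≤ (c' i₀)⁻¹ * c' i₁
  · have h1 : (fun i => (c' i₀)⁻¹ * c' i) ∈ Kc := by
      refine ⟨fun i => hcase.trans ?_, fun i => ?_⟩
      · exact mul_le_mul_of_nonneg_left (hi₁ i) (by positivity)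
      · show (c' i₀)⁻¹ * c' i ≤ 1
        rw [inv_mul_le_iff₀ hC, mul_one]
        exact hi₀ i
    have h2 := hmin h1
    have h3 : psi v c ≤ psi v (fun i => (c' i₀)⁻¹ * c' i) := h2
    rwa [psi_smul v c' (inv_pos.2 hC)] at h3
  · push Not at hcase
    have h1 : psi v c ≤ psi v fun _ => 1 := hmin h1K
    refine h1.trans ?_
    have h2 := hco c' hc' i₀ i₁ hi₀ hi₁
    have hP : 0 < (∏ i, c' i) ^ Fintype.card κ := pow_pos (Finset.prod_pos fun i _ => hc' i) _
    have h3 : psi v (fun _ => 1) ≤ δ * R := by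
      have := le_max_right 1 (psi v (fun _ => 1) / δ)
      rw [← hR, div_le_iff₀ hδ] at this
      linarith
    refine h3.trans ?_
    unfold psi
    rw [le_div_iff₀ hP]
    have hb : 0 < c' i₁ := hc' i₁
    have h4 : c' i₁ * R < c' i₀ := by
      rw [inv_mul_lt_iff₀ hC, mul_one_div, lt_div_iff₀ hR0] at hcase
      exact hcase
    refine le_of_mul_le_mul_right ?_ hb
    calc δ * R * (∏ i, c' i) ^ Fintype.card κ * c' i₁
        = δ * ((c' i₁ * R) * (∏ i, c' i) ^ Fintype.card κ) := by ring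
      _ ≤ δ * (c' i₀ * (∏ i, c' i) ^ Fintype.card κ) := by gcongr
      _ ≤ _ := h2

theorem stationary {N h : ℕ} {p : ℝ} (H : ∀ ε : ℝ, -1 < ε → (1 + ε) ^ h ≤ (1 + ε * p) ^ N) :
    (N : ℝ) * p = h := by
  have h1 : IsLocalMin (fun ε : ℝ => (1 + ε * p) ^ N - (1 + ε) ^ h) 0 := by
    have h2 : ∀ᶠ ε : ℝ in nhds 0, -1 < ε := eventually_gt_nhds (by norm_num)
    filter_upwards [h2] with ε hε
    have := H ε hε
    simp only [zero_mul, add_zero, one_pow, sub_self]
    linarith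
  have h3 : HasDerivAt (fun ε : ℝ => (1 + ε * p) ^ N - (1 + ε) ^ h) ((N : ℝ) * p - h) 0 := by
    have a1 : HasDerivAt (fun ε : ℝ => 1 + ε * p) p 0 := by
      simpa using ((hasDerivAt_id (0 : ℝ)).mul_const p).const_add 1
    have a2 : HasDerivAt (fun ε : ℝ => 1 + ε) 1 0 := (hasDerivAt_id (0 : ℝ)).const_add 1
    have a3 := (a1.pow N).sub (a2.pow h)
    have e1 : (N : ℝ) * (1 + 0 * p) ^ (N - 1) * p - (h : ℝ) * (1 + 0) ^ (h - 1) * 1 = N * p - h := by
      simp
    rw [e1] at a3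
    exact a3
  have h4 := h1.hasDerivAt_eq_zero h3
  linarith

/-- **Forster's position.** -/
theorem exists_position [Fintype ι] [Nonempty ι] [Nonempty κ] (v : ι → κ → ℝ)
    (h0 : ∀ i, v i ≠ 0) (hv : ∀ x : κ → ℝ, x ≠ 0 →
      Fintype.card κ * (univ.filter fun i => v i ⬝ᵥ x = 0).card < Fintype.card ι) :
    ∃ c : ι → ℝ, (∀ i, 0 < c i) ∧ (Mf v univ c).PosDef ∧
      ∀ i, (Fintype.card ι : ℝ) * (c i * (v i ⬝ᵥ ((Mf v univ c)⁻¹ *ᵥ v i))) = Fintype.card κ := by
  classical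
  obtain ⟨c, hc, hmin⟩ := exists_minimiser v h0 hv
  have hpd : (Mf v univ c).PosDef := by
    refine Mf_posDef v univ c (fun i _ => hc i) fun x hx => ?_
    by_contra hcon
    push Not at hcon
    have h1 := hv x hx
    rw [Finset.filter_true_of_mem fun i hi => hcon i hi, Finset.card_univ] at h1
    have h2 : 1 ≤ Fintype.card κ := Fintype.card_pos
    nlinarith
  refine ⟨c, hc, hpd, fun j => stationary fun ε hε => ?_⟩
  have hε1 : 0 < 1 + ε := by linarith
  set c' : ι → ℝ := Function.update c j (c j * (1 + ε)) with hc'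
  have hc'pos : ∀ i, 0 < c' i := by
    intro i
    by_cases h : i = j
    · subst h
      rw [hc', Function.update_self]
      exact mul_pos (hc i) hε1
    · rw [hc', Function.update_of_ne h]
      exact hc i
  have hM : Mf v univ c' = Mf v univ c + (ε * c j) • vecMulVec (v j) (v j) := by
    unfold Mf
    rw [← Finset.add_sum_erase _ _ (mem_univ j), ← Finset.add_sum_erase _ (fun i => c i • _) (mem_univ j)]
    have e1 : ∑ x ∈ univ.erase j, c' x • vecMulVec (v x) (v x) =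
        ∑ x ∈ univ.erase j, c x • vecMulVec (v x) (v x) :=
      Finset.sum_congr rfl fun i hi => by rw [hc', Function.update_of_ne (Finset.ne_of_mem_erase hi)]
    rw [e1, hc', Function.update_self]
    have e2 : c j * (1 + ε) = c j + ε * c j := by ring
    rw [e2, add_smul]
    abel
  have hprod : ∏ i, c' i = (1 + ε) * ∏ i, c i := by
    rw [← Finset.mul_prod_erase _ _ (mem_univ j), ← Finset.mul_prod_erase _ c (mem_univ j)]
    have e1 : ∏ x ∈ univ.erase j, c' x = ∏ x ∈ univ.erase j, c x :=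
      Finset.prod_congr rfl fun i hi => by rw [hc', Function.update_of_ne (Finset.ne_of_mem_erase hi)]
    rw [e1, hc', Function.update_self]
    ring
  have h1 := hmin c' hc'pos
  unfold psi at h1
  rw [hM, det_add_vmv hpd, hprod, mul_pow, mul_pow] at h1
  have hP : 0 < (∏ i, c i) ^ Fintype.card κ := pow_pos (Finset.prod_pos fun i _ => hc i) _
  have hD : 0 < (Mf v univ c).det ^ Fintype.card ι := pow_pos hpd.det_pos _
  have hE : 0 < (1 + ε) ^ Fintype.card κ := pow_pos hε1 _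
  rw [div_le_div_iff₀ hP (mul_pos hE hP)] at h1
  have h2 : (Mf v univ c).det ^ Fintype.card ι * (∏ i, c i) ^ Fintype.card κ * (1 + ε) ^ Fintype.card κ ≤
      (Mf v univ c).det ^ Fintype.card ι * (∏ i, c i) ^ Fintype.card κ *
        (1 + ε * c j * (v j ⬝ᵥ ((Mf v univ c)⁻¹ *ᵥ v j))) ^ Fintype.card ι := by
    linarith
  have h3 := le_of_mul_le_mul_left h2 (mul_pos hD hP)
  have h4 : 1 + ε * (c j * (v j ⬝ᵥ ((Mf v univ c)⁻¹ *ᵥ v j))) =
      1 + ε * c j * (v j ⬝ᵥ ((Mf v univ c)⁻¹ *ᵥ v j)) := by ring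
  rw [h4]
  exact h3

end Vale.Agent.P054.T3.H226
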