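import Vale.Agent.P054.T3.H226.PolyWeight
import Vale.Agent.P054.H978.Final
import Vale.Agent.P054.T2.H686.Pairs

set_option autoImplicit false
set_option linter.all false

/-!
# P054 / T3 / H226: the hypothesis of `exists_weight` for sets with few distances

By the theorem on hypersurfaces (`H978`): a set with at most `t` distances and at least `t^(d/2)`
points has less than `1/h` of its points on every hypersurface of degree `D₀ ≤ t^η`,
`h = (D₀+d choose d)`.
-/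

namespace Vale.Agent.P054.T3.H226

open Finset Matrix Module
open Vale.Agent.P054.T2.H686 (E dists coe_dists)

theorem choose_le_pow (D : ℕ) : ∀ d : ℕ, (D + d).choose d ≤ (D + 1) ^ d
  | 0 => by simp
  | d + 1 => by
    have h1 := Nat.add_one_mul_choose_eq (D + d) d
    have h2 := choose_le_pow D d
    have h3 : (D + d + 1) * (D + d).choose d ≤ (D + 1) ^ (d + 1) * (d + 1) := by
      calc (D + d + 1) * (D + d).choose d ≤ ((D + 1) * (d + 1)) * (D + 1) ^ d := by
            apply Nat.mul_le_mul _ h2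
            nlinarith
        _ = _ := by ring
    rw [h1] at h3
    exact Nat.le_of_mul_le_mul_right h3 (Nat.succ_pos d)

theorem hypP (n : ℕ) (hn : 2 ≤ n) : ∃ η : ℝ, 0 < η ∧ ∃ t₀ : ℕ, ∀ t : ℕ, t₀ ≤ t → 1 ≤ t →
    ∀ P : Finset (E n), (dists P).card ≤ t →
      (t : ℝ) ^ (((n + 1 : ℕ) : ℝ) / 2) ≤ P.card → ∀ D₀ : ℕ, (D₀ : ℝ) ≤ (t : ℝ) ^ η →
      ∀ f : MvPolynomial (Fin (n + 1)) ℝ, f ≠ 0 → f.totalDegree ≤ D₀ →
        (D₀ + (n + 1)).choose (n + 1) *
          (P.filter fun p => MvPolynomial.eval (fun i => p i) f = 0).card < P.card := by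
  classical
  obtain ⟨η, hη, H⟩ := Vale.Agent.P054.H978.hypersurfaces (n + 1) (by omega)
  obtain ⟨c, hc, H⟩ := H (2 ^ (n + 1))
  set d : ℝ := ((n + 1 : ℕ) : ℝ) with hd
  have hd0 : 3 ≤ d := by rw [hd]; exact_mod_cast (by omega : 3 ≤ n + 1)
  have hηd : η / d ≤ η := div_le_self hη.le (by linarith)
  -- `c t₀^η > 1`
  obtain ⟨t₀, ht₀⟩ : ∃ t₀ : ℕ, ∀ t : ℕ, t₀ ≤ t → 1 < c * (t : ℝ) ^ η := by
    have h1 := (tendsto_rpow_atTop hη).comp tendsto_natCast_atTop_atTop
    have h2 := (h1.const_mul_atTop hc).eventually_gt_atTop (1 : ℝ)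
    rw [Filter.eventually_atTop] at h2
    exact h2
  refine ⟨η / d, by positivity, max t₀ 2, fun t ht ht1 P hP hPt D₀ hD₀ f hf hfd => ?_⟩
  by_contra hcon
  push Not at hcon
  set N : ℝ := (P.card : ℝ) with hN
  set z : ℕ := (P.filter fun p => MvPolynomial.eval (fun i => p i) f = 0).card with hz
  have ht1r : (1 : ℝ) ≤ t := by exact_mod_cast ht1
  have ht0r : (0 : ℝ) < t := by linarith
  have ht2 : (2 : ℝ) ≤ t := by exact_mod_cast (le_max_right _ _).trans ht
  have htN : (t : ℝ) ≤ N := by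
    refine le_trans ?_ hPt
    calc (t : ℝ) = (t : ℝ) ^ (1 : ℝ) := (Real.rpow_one _).symm
      _ ≤ _ := Real.rpow_le_rpow_of_exponent_le ht1r (by linarith)
  have hN0 : 0 < N := by linarith
  have hN1 : 1 ≤ N := by linarith
  have hDN : (D₀ : ℝ) ≤ N ^ (η / d) :=
    hD₀.trans (Real.rpow_le_rpow ht0r.le htN (by positivity))
  have hNη1 : 1 ≤ N ^ (η / d) := Real.one_le_rpow hN1 (by positivity)
  have h2d : (1 : ℝ) ≤ 2 ^ (n + 1) := one_le_pow₀ (by norm_num)
  obtain ⟨p, hp, -, h1⟩ := H P f (by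
      have : (2 : ℝ) ≤ P.card := by rw [← hN]; linarith
      exact_mod_cast this) hf (by
      calc (f.totalDegree : ℝ) ≤ D₀ := by exact_mod_cast hfd
        _ ≤ N ^ (η / d) := hDN
        _ ≤ N ^ η := Real.rpow_le_rpow_of_exponent_le hN1 hηd
        _ ≤ 2 ^ (n + 1) * N ^ η := le_mul_of_one_le_left (by positivity) h2d) (by
      have hzc : {p : EuclideanSpace ℝ (Fin (n + 1)) | p ∈ P ∧
          MvPolynomial.eval (fun i => p i) f = 0}.ncard = z := by
        rw [hz, ← Set.ncard_coe_finset]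
        congr 1
        ext p
        simp
      rw [hzc, ← hN]
      have h3 : N ≤ (2 ^ (n + 1) * N ^ η) * z := by
        calc N ≤ ((D₀ + (n + 1)).choose (n + 1) * z : ℕ) := by rw [hN]; exact_mod_cast hcon
          _ = ((D₀ + (n + 1)).choose (n + 1) : ℕ) * (z : ℝ) := by push_cast; ring
          _ ≤ (2 ^ (n + 1) * N ^ η) * z := by
              gcongr
              calc (((D₀ + (n + 1)).choose (n + 1) : ℕ) : ℝ) ≤ ((D₀ + 1) ^ (n + 1) : ℕ) := by
                    exact_mod_cast choose_le_pow D₀ (n + 1)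
                _ = ((D₀ : ℝ) + 1) ^ (n + 1) := by push_cast; ring
                _ ≤ (2 * N ^ (η / d)) ^ (n + 1) := by gcongr; linarith
                _ = 2 ^ (n + 1) * (N ^ (η / d)) ^ (n + 1) := by rw [mul_pow]
                _ = 2 ^ (n + 1) * N ^ η := by
                    congr 1
                    rw [← Real.rpow_natCast, ← Real.rpow_mul hN0.le, ← hd]
                    congr 1
                    field_simp
      calc N ^ (1 - η) = N * N ^ (-η) := by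
            rw [sub_eq_add_neg, Real.rpow_add hN0, Real.rpow_one]
        _ ≤ ((2 ^ (n + 1) * N ^ η) * z) * N ^ (-η) := by gcongr
        _ = 2 ^ (n + 1) * z * (N ^ η * N ^ (-η)) := by ring
        _ = 2 ^ (n + 1) * z := by
            rw [← Real.rpow_add hN0, add_neg_cancel, Real.rpow_zero, mul_one])
  have h2 : ({r : ℝ | ∃ q ∈ P, q ≠ p ∧ r = dist p q}.ncard : ℝ) ≤ t := by
    have h3 : {r : ℝ | ∃ q ∈ P, q ≠ p ∧ r = dist p q} ⊆ (dists P : Set ℝ) := by
      rw [coe_dists]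
      rintro r ⟨q, hq, hqp, rfl⟩
      exact ⟨p, hp, q, hq, hqp.symm, rfl⟩
    have h4 := Set.ncard_le_ncard h3 (dists P).finite_toSet
    rw [Set.ncard_coe_finset] at h4
    exact_mod_cast h4.trans hP
  -- `t ≤ N^(2/d)`
  have h5 : (t : ℝ) ≤ N ^ (2 / d) := by
    have h6 : ((t : ℝ) ^ (d / 2)) ^ (2 / d) ≤ N ^ (2 / d) :=
      Real.rpow_le_rpow (by positivity) hPt (by positivity)
    rw [← Real.rpow_mul ht0r.le, show d / 2 * (2 / d) = 1 by field_simp, Real.rpow_one] at h6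
    exact h6
  have h6 : c * N ^ (2 / d + η) ≤ N ^ (2 / d) := h1.trans (h2.trans h5)
  rw [Real.rpow_add hN0] at h6
  have h7 : 0 < N ^ (2 / d) := by positivity
  have h8 : c * N ^ η ≤ 1 := by
    by_contra h9
    push Not at h9
    nlinarith
  have h9 := ht₀ t ((le_max_left _ _).trans ht)
  have h10 : c * (t : ℝ) ^ η ≤ c * N ^ η := by gcongr
  linarith

/-- **the weight, for sets with few distances** -/
theorem exists_weight_dists (n : ℕ) (hn : 2 ≤ n) : ∃ η : ℝ, 0 < η ∧ ∃ t₀ : ℕ, ∀ t : ℕ, t₀ ≤ t →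
    1 ≤ t → ∀ P : Finset (E n), (dists P).card ≤ t →
      (t : ℝ) ^ (((n + 1 : ℕ) : ℝ) / 2) ≤ P.card → ∀ D₀ : ℕ, (D₀ : ℝ) ≤ (t : ℝ) ^ η →
      ∃ w : E n → E n → ℝ,
        (∀ x y, 0 ≤ w x y) ∧ (∀ x y, w x y ≤ 1) ∧ (∀ x y, w x y = w y x) ∧
        (∀ x ∈ P, w x x = 1) ∧
        (∀ x ∈ P, ((D₀ + (n + 1)).choose (n + 1) : ℝ) * ∑ y ∈ P, w x y = P.card) ∧
        ∀ A ⊆ P, ∀ k, finrank ℝ (vectorSpan ℝ (A : Set (E n))) ≤ k →
          (A.card : ℝ) ^ 2 ≤ ((D₀ + k).choose k : ℝ) * ∑ x ∈ A, ∑ y ∈ A, w x y := by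
  obtain ⟨η, hη, t₀, H⟩ := hypP n hn
  refine ⟨η, hη, t₀, fun t ht ht1 P hP hPt D₀ hD₀ => ?_⟩
  have ht1r : (1 : ℝ) ≤ t := by exact_mod_cast ht1
  have hne : P.Nonempty := by
    rw [← Finset.card_pos]
    have h1 : (1 : ℝ) ≤ (t : ℝ) ^ (((n + 1 : ℕ) : ℝ) / 2) := Real.one_le_rpow ht1r (by positivity)
    have : (0 : ℝ) < P.card := by linarith
    exact_mod_cast this
  exact exists_weight P hne (H t ht ht1 P hP hPt D₀ hD₀)

end Vale.Agent.P054.T3.H226
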