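import Vale.Agent.P054.T3.H226.CellSum

set_option autoImplicit false
set_option linter.all false

/-!
# P054 / T3 / H226: the numbers of the start for `n = 2`
-/

namespace Vale.Agent.P054.T3.H226

open Finset

/-- upper bound for the functional at `P × P` -/
theorem Phi_top_le {b K p t TP A : ℝ} (hK : 1 ≤ K) (ht : 1 ≤ t)
    (hp1 : K * t ^ (3 / 2 : ℝ) ≤ p) (hp2 : p ≤ 2 * (K * t ^ (3 / 2 : ℝ))) (hTP0 : 0 ≤ TP)
    (hTP : TP ≤ A * t) (hA : 1 ≤ A) :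
    Phi b (p ^ 2) TP ≤ (p ^ 2) ^ (1 - b) * (p * (2 * A * K ^ (1 / 3 : ℝ) * t ^ (1 / 2 : ℝ))) := by
  have ht0 : 0 < t := by linarith
  have hK0 : 0 < K := by linarith
  have ht32 : 0 < t ^ (3 / 2 : ℝ) := Real.rpow_pos_of_pos ht0 _
  have hp0 : 0 < p := lt_of_lt_of_le (by positivity) hp1
  have hA0 : 0 < A := by linarith
  have hK13 : 1 ≤ K ^ (1 / 3 : ℝ) := Real.one_le_rpow hK (by norm_num)
  have ht12 : 0 < t ^ (1 / 2 : ℝ) := Real.rpow_pos_of_pos ht0 _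
  unfold Phi
  refine mul_le_mul_of_nonneg_left (max_le ?_ ?_) (by positivity)
  · -- `(p² TP)^(1/2)`
    have h1 : (p ^ 2 * TP) ^ (1 / 2 : ℝ) = p * TP ^ (1 / 2 : ℝ) := by
      rw [Real.mul_rpow (by positivity) hTP0]
      congr 1
      rw [← Real.sqrt_eq_rpow, Real.sqrt_sq hp0.le]
    have h2 : TP ^ (1 / 2 : ℝ) ≤ A * t ^ (1 / 2 : ℝ) := by
      calc TP ^ (1 / 2 : ℝ) ≤ (A * t) ^ (1 / 2 : ℝ) :=
            Real.rpow_le_rpow hTP0 hTP (by norm_num)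
        _ = A ^ (1 / 2 : ℝ) * t ^ (1 / 2 : ℝ) := Real.mul_rpow hA0.le ht0.le
        _ ≤ A ^ (1 : ℝ) * t ^ (1 / 2 : ℝ) := by
            refine mul_le_mul_of_nonneg_right ?_ ht12.le
            exact Real.rpow_le_rpow_of_exponent_le hA (by norm_num)
        _ = A * t ^ (1 / 2 : ℝ) := by rw [Real.rpow_one]
    rw [h1]
    refine mul_le_mul_of_nonneg_left ?_ hp0.le
    calc TP ^ (1 / 2 : ℝ) ≤ A * t ^ (1 / 2 : ℝ) := h2
      _ ≤ A * t ^ (1 / 2 : ℝ) * (2 * K ^ (1 / 3 : ℝ)) :=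
          le_mul_of_one_le_right (by positivity) (by linarith)
      _ = _ := by ring
  · -- `(p²)^(2/3) = p p^(1/3)`
    have h1 : (p ^ 2) ^ (2 / 3 : ℝ) = p * p ^ (1 / 3 : ℝ) := by
      rw [← Real.rpow_natCast p 2, ← Real.rpow_mul hp0.le]
      nth_rewrite 2 [← Real.rpow_one p]
      rw [← Real.rpow_add hp0]
      norm_num
    rw [h1]
    refine mul_le_mul_of_nonneg_left ?_ hp0.le
    have h2 : p ^ (1 / 3 : ℝ) ≤ 2 * (K ^ (1 / 3 : ℝ) * t ^ (1 / 2 : ℝ)) := by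
      calc p ^ (1 / 3 : ℝ) ≤ (2 * (K * t ^ (3 / 2 : ℝ))) ^ (1 / 3 : ℝ) :=
            Real.rpow_le_rpow hp0.le hp2 (by norm_num)
        _ = (2 : ℝ) ^ (1 / 3 : ℝ) * (K ^ (1 / 3 : ℝ) * t ^ (1 / 2 : ℝ)) := by
            rw [Real.mul_rpow (by norm_num) (by positivity), Real.mul_rpow hK0.le ht32.le,
              ← Real.rpow_mul ht0.le]
            norm_num
        _ ≤ (2 : ℝ) ^ (1 : ℝ) * (K ^ (1 / 3 : ℝ) * t ^ (1 / 2 : ℝ)) := by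
            refine mul_le_mul_of_nonneg_right ?_ (by positivity)
            exact Real.rpow_le_rpow_of_exponent_le (by norm_num) (by norm_num)
        _ = _ := by rw [Real.rpow_one]
    calc p ^ (1 / 3 : ℝ) ≤ 2 * (K ^ (1 / 3 : ℝ) * t ^ (1 / 2 : ℝ)) := h2
      _ ≤ 2 * (K ^ (1 / 3 : ℝ) * t ^ (1 / 2 : ℝ)) * A :=
          le_mul_of_one_le_right (by positivity) hA
      _ = _ := by ring

/-- the key inequality -/
theorem start2_key {b K p t N e T v TP A D : ℝ} (hK : 1 ≤ K) (ht : 1 ≤ t)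
    (hp1 : K * t ^ (3 / 2 : ℝ) ≤ p) (hp2 : p ≤ 2 * (K * t ^ (3 / 2 : ℝ)))
    (hN : 0 < N) (he : 0 ≤ e) (hD : 0 < D) (hTP0 : 0 ≤ TP) (hTP : TP ≤ A * t) (hA : 1 ≤ A)
    (hv : p ^ 4 ≤ D * (t * v)) (hmax : v * Phi b N T ≤ e * Phi b (p ^ 2) TP) :
    K ^ (2 / 3 : ℝ) * (p ^ 2) ^ b * Phi b N T ≤ 2 * A * D * e := by
  have ht0 : 0 < t := by linarith
  have hK0 : 0 < K := by linarith
  have ht32 : 0 < t ^ (3 / 2 : ℝ) := Real.rpow_pos_of_pos ht0 _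
  have hp0 : 0 < p := lt_of_lt_of_le (by positivity) hp1
  have hA0 : 0 < A := by linarith
  have hPhi : 0 < Phi b N T := Phi_pos hN
  have hp2b : 0 < (p ^ 2) ^ (1 - b) := Real.rpow_pos_of_pos (by positivity) _
  have h1 := Phi_top_le (b := b) hK ht hp1 hp2 hTP0 hTP hA
  have h2 : p ^ 4 * Phi b N T ≤
      D * t * (e * ((p ^ 2) ^ (1 - b) * (p * (2 * A * K ^ (1 / 3 : ℝ) * t ^ (1 / 2 : ℝ))))) := by
    calc p ^ 4 * Phi b N T ≤ (D * (t * v)) * Phi b N T := by gcongr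
      _ = D * t * (v * Phi b N T) := by ring
      _ ≤ D * t * (e * Phi b (p ^ 2) TP) := by gcongr
      _ ≤ _ := by gcongr
  have e1 : t * t ^ (1 / 2 : ℝ) = t ^ (3 / 2 : ℝ) := by
    nth_rewrite 1 [← Real.rpow_one t]
    rw [← Real.rpow_add ht0]
    norm_num
  have e2 : K ^ (1 / 3 : ℝ) * K ^ (2 / 3 : ℝ) = K := by
    rw [← Real.rpow_add hK0]
    norm_num
  have e3 : (p ^ 2) ^ (1 - b) * (p ^ 2) ^ b = p ^ 2 := by
    rw [← Real.rpow_add (by positivity)]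
    norm_num
  -- multiply by `K^(2/3) (p²)^b`
  have h3 : (p ^ 4) * (K ^ (2 / 3 : ℝ) * (p ^ 2) ^ b * Phi b N T) ≤
      p ^ 4 * (2 * A * D * e) := by
    calc (p ^ 4) * (K ^ (2 / 3 : ℝ) * (p ^ 2) ^ b * Phi b N T)
        = (K ^ (2 / 3 : ℝ) * (p ^ 2) ^ b) * (p ^ 4 * Phi b N T) := by ring
      _ ≤ (K ^ (2 / 3 : ℝ) * (p ^ 2) ^ b) * (D * t * (e * ((p ^ 2) ^ (1 - b) *
            (p * (2 * A * K ^ (1 / 3 : ℝ) * t ^ (1 / 2 : ℝ)))))) := by gcongr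
      _ = 2 * A * D * e * p * (((p ^ 2) ^ (1 - b) * (p ^ 2) ^ b) *
            ((K ^ (1 / 3 : ℝ) * K ^ (2 / 3 : ℝ)) * (t * t ^ (1 / 2 : ℝ)))) := by ring
      _ = 2 * A * D * e * p * (p ^ 2 * (K * t ^ (3 / 2 : ℝ))) := by rw [e1, e2, e3]
      _ ≤ 2 * A * D * e * p * (p ^ 2 * p) := by gcongr
      _ = p ^ 4 * (2 * A * D * e) := by ring
  exact le_of_mul_le_mul_left h3 (by positivity)

/-- **the numbers of the start** -/
theorem start2_num {b K p t N e T v TP A D : ℝ} (hb : 0 ≤ b) (hK : 1 ≤ K) (ht : 1 ≤ t)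
    (hp1 : K * t ^ (3 / 2 : ℝ) ≤ p) (hp2 : p ≤ 2 * (K * t ^ (3 / 2 : ℝ)))
    (hN : 0 < N) (he : 0 ≤ e) (hD : 0 < D) (hTP0 : 0 ≤ TP) (hTP : TP ≤ A * t) (hA : 1 ≤ A)
    (hT : 0 < T)
    (hv : p ^ 4 ≤ D * (t * v)) (hmax : v * Phi b N T ≤ e * Phi b (p ^ 2) TP)
    {z : ℝ} (hz : N = z * p ^ 2) :
    0 < e ∧ N ^ 2 / e ≤ 2 * (2 * A * D) * (z ^ (1 / 3 + b) * t) ∧
      K ^ 2 * z ^ (-(3 * b)) * (N ^ 2 / e) ^ 3 ≤ (2 * A * D) ^ 3 * N ∧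
      K ^ (4 / 3 : ℝ) * z ^ (-(2 * b)) * (N ^ 2 / e) ^ 2 * T ≤ (2 * A * D) ^ 2 * N := by
  have ht0 : 0 < t := by linarith
  have hK0 : 0 < K := by linarith
  have ht32 : 0 < t ^ (3 / 2 : ℝ) := Real.rpow_pos_of_pos ht0 _
  have hp0 : 0 < p := lt_of_lt_of_le (by positivity) hp1
  have hA0 : 0 < A := by linarith
  have hz0 : 0 < z := by
    rw [hz] at hN
    exact (pos_iff_pos_of_mul_pos hN).2 (by positivity)
  have hkey := start2_key hK ht hp1 hp2 hN he hD hTP0 hTP hA hv hmax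
  set C : ℝ := 2 * A * D with hC
  have hC0 : 0 < C := by rw [hC]; positivity
  have hPhi : 0 < Phi b N T := Phi_pos hN
  have hpb : 0 < (p ^ 2) ^ b := Real.rpow_pos_of_pos (by positivity) _
  have hK23 : 0 < K ^ (2 / 3 : ℝ) := Real.rpow_pos_of_pos hK0 _
  have he0 : 0 < e := by
    have : 0 < C * e := lt_of_lt_of_le (by positivity) hkey
    exact (pos_iff_pos_of_mul_pos this).1 hC0
  -- `(p²)^b N^(1-b) = z^(-b) N`
  have e1 : (p ^ 2) ^ b * N ^ (1 - b) = z ^ (-b) * N := by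
    have h1 : p ^ 2 = N * z⁻¹ := by rw [hz]; field_simp
    rw [h1, Real.mul_rpow hN.le (by positivity), Real.inv_rpow hz0.le, Real.rpow_neg hz0.le]
    calc N ^ b * (z ^ b)⁻¹ * N ^ (1 - b) = (z ^ b)⁻¹ * (N ^ b * N ^ (1 - b)) := by ring
      _ = (z ^ b)⁻¹ * N := by
          rw [← Real.rpow_add hN]; norm_num
  have hzb : 0 < z ^ (-b) := Real.rpow_pos_of_pos hz0 _
  set τ : ℝ := N ^ 2 / e with hτ
  have hτ0 : 0 < τ := by rw [hτ]; positivity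
  have hτe : τ * e = N ^ 2 := by rw [hτ]; field_simp
  -- first form
  have k1 : K ^ (2 / 3 : ℝ) * z ^ (-b) * τ ≤ C * N ^ (1 / 3 : ℝ) := by
    have h1 : K ^ (2 / 3 : ℝ) * z ^ (-b) * (N * N ^ (2 / 3 : ℝ)) ≤ C * e := by
      calc K ^ (2 / 3 : ℝ) * z ^ (-b) * (N * N ^ (2 / 3 : ℝ))
          = K ^ (2 / 3 : ℝ) * (z ^ (-b) * N) * N ^ (2 / 3 : ℝ) := by ring
        _ = K ^ (2 / 3 : ℝ) * ((p ^ 2) ^ b * N ^ (1 - b)) * N ^ (2 / 3 : ℝ) := by rw [e1]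
        _ = K ^ (2 / 3 : ℝ) * (p ^ 2) ^ b * (N ^ (1 - b) * N ^ (2 / 3 : ℝ)) := by ring
        _ ≤ K ^ (2 / 3 : ℝ) * (p ^ 2) ^ b * Phi b N T := by
            gcongr
            exact Phi_ge_right hN
        _ ≤ C * e := hkey
    have h2 : (N * N ^ (2 / 3 : ℝ)) * (K ^ (2 / 3 : ℝ) * z ^ (-b) * τ) ≤
        (N * N ^ (2 / 3 : ℝ)) * (C * N ^ (1 / 3 : ℝ)) := by
      calc (N * N ^ (2 / 3 : ℝ)) * (K ^ (2 / 3 : ℝ) * z ^ (-b) * τ)
          = (K ^ (2 / 3 : ℝ) * z ^ (-b) * (N * N ^ (2 / 3 : ℝ))) * τ := by ring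
        _ ≤ (C * e) * τ := by gcongr
        _ = C * (τ * e) := by ring
        _ = C * (N * N) := by rw [hτe]; ring
        _ = C * (N * (N ^ (2 / 3 : ℝ) * N ^ (1 / 3 : ℝ))) := by
            rw [← Real.rpow_add hN]; norm_num
        _ = _ := by ring
    exact le_of_mul_le_mul_left h2 (by positivity)
  have k2 : K ^ (2 / 3 : ℝ) * z ^ (-b) * τ * T ^ (1 / 2 : ℝ) ≤ C * N ^ (1 / 2 : ℝ) := by
    have h1 : K ^ (2 / 3 : ℝ) * z ^ (-b) * (N * (N * T) ^ (1 / 2 : ℝ)) ≤ C * e := by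
      calc K ^ (2 / 3 : ℝ) * z ^ (-b) * (N * (N * T) ^ (1 / 2 : ℝ))
          = K ^ (2 / 3 : ℝ) * (z ^ (-b) * N) * (N * T) ^ (1 / 2 : ℝ) := by ring
        _ = K ^ (2 / 3 : ℝ) * ((p ^ 2) ^ b * N ^ (1 - b)) * (N * T) ^ (1 / 2 : ℝ) := by rw [e1]
        _ = K ^ (2 / 3 : ℝ) * (p ^ 2) ^ b * (N ^ (1 - b) * (N * T) ^ (1 / 2 : ℝ)) := by ring
        _ ≤ K ^ (2 / 3 : ℝ) * (p ^ 2) ^ b * Phi b N T := by
            gcongr
            exact Phi_ge_left hN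
        _ ≤ C * e := hkey
    rw [Real.mul_rpow hN.le hT.le] at h1
    have h2 : (N * N ^ (1 / 2 : ℝ)) * (K ^ (2 / 3 : ℝ) * z ^ (-b) * τ * T ^ (1 / 2 : ℝ)) ≤
        (N * N ^ (1 / 2 : ℝ)) * (C * N ^ (1 / 2 : ℝ)) := by
      calc (N * N ^ (1 / 2 : ℝ)) * (K ^ (2 / 3 : ℝ) * z ^ (-b) * τ * T ^ (1 / 2 : ℝ))
          = (K ^ (2 / 3 : ℝ) * z ^ (-b) * (N * (N ^ (1 / 2 : ℝ) * T ^ (1 / 2 : ℝ)))) * τ := by
            ring
        _ ≤ (C * e) * τ := by gcongr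
        _ = C * (τ * e) := by ring
        _ = C * (N * N) := by rw [hτe]; ring
        _ = C * (N * (N ^ (1 / 2 : ℝ) * N ^ (1 / 2 : ℝ))) := by
            rw [← Real.rpow_add hN]; norm_num
        _ = _ := by ring
    exact le_of_mul_le_mul_left h2 (by positivity)
  refine ⟨he0, ?_, ?_, ?_⟩
  · -- `N^(1/3) = z^(1/3) p^(2/3)`
    have h1 : N ^ (1 / 3 : ℝ) ≤ 2 * (z ^ (1 / 3 : ℝ) * (K ^ (2 / 3 : ℝ) * t)) := by
      have h2 : (p ^ 2) ^ (1 / 3 : ℝ) ≤ 2 * (K ^ (2 / 3 : ℝ) * t) := by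
        calc (p ^ 2) ^ (1 / 3 : ℝ) ≤ ((2 * (K * t ^ (3 / 2 : ℝ))) ^ 2) ^ (1 / 3 : ℝ) := by
              gcongr
          _ = (2 * (K * t ^ (3 / 2 : ℝ))) ^ (2 / 3 : ℝ) := by
              rw [← Real.rpow_natCast _ 2, ← Real.rpow_mul (by positivity)]
              norm_num
          _ = (2 : ℝ) ^ (2 / 3 : ℝ) * (K ^ (2 / 3 : ℝ) * t) := by
              rw [Real.mul_rpow (by norm_num) (by positivity), Real.mul_rpow hK0.le ht32.le,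
                ← Real.rpow_mul ht0.le]
              norm_num
          _ ≤ (2 : ℝ) ^ (1 : ℝ) * (K ^ (2 / 3 : ℝ) * t) := by
              refine mul_le_mul_of_nonneg_right ?_ (by positivity)
              exact Real.rpow_le_rpow_of_exponent_le (by norm_num) (by norm_num)
          _ = _ := by rw [Real.rpow_one]
      calc N ^ (1 / 3 : ℝ) = z ^ (1 / 3 : ℝ) * (p ^ 2) ^ (1 / 3 : ℝ) := by
            rw [hz, Real.mul_rpow hz0.le (by positivity)]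
        _ ≤ z ^ (1 / 3 : ℝ) * (2 * (K ^ (2 / 3 : ℝ) * t)) := by gcongr
        _ = _ := by ring
    have h2 : (K ^ (2 / 3 : ℝ) * z ^ (-b)) * τ ≤ (K ^ (2 / 3 : ℝ) * z ^ (-b)) *
        (2 * C * (z ^ (1 / 3 + b) * t)) := by
      calc (K ^ (2 / 3 : ℝ) * z ^ (-b)) * τ ≤ C * N ^ (1 / 3 : ℝ) := k1
        _ ≤ C * (2 * (z ^ (1 / 3 : ℝ) * (K ^ (2 / 3 : ℝ) * t))) := by gcongr
        _ = C * (2 * ((z ^ (-b) * z ^ (1 / 3 + b)) * (K ^ (2 / 3 : ℝ) * t))) := by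
            rw [← Real.rpow_add hz0, show (-b + (1 / 3 + b) : ℝ) = 1 / 3 by ring]
        _ = _ := by ring
    exact le_of_mul_le_mul_left h2 (by positivity)
  · have h1 : (K ^ (2 / 3 : ℝ) * z ^ (-b) * τ) ^ 3 ≤ (C * N ^ (1 / 3 : ℝ)) ^ 3 := by
      gcongr
    have e2 : (K ^ (2 / 3 : ℝ)) ^ 3 = K ^ 2 := by
      rw [← Real.rpow_natCast (K ^ (2 / 3 : ℝ)) 3, ← Real.rpow_mul hK0.le]
      norm_num
    have e3 : (z ^ (-b)) ^ 3 = z ^ (-(3 * b)) := by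
      rw [← Real.rpow_natCast (z ^ (-b)) 3, ← Real.rpow_mul hz0.le]
      congr 1
      push_cast
      ring
    have e4 : (N ^ (1 / 3 : ℝ)) ^ 3 = N := by
      rw [← Real.rpow_natCast (N ^ (1 / 3 : ℝ)) 3, ← Real.rpow_mul hN.le]
      norm_num
    rw [mul_pow, mul_pow, mul_pow, e2, e3, e4] at h1
    exact h1
  · have h1 : (K ^ (2 / 3 : ℝ) * z ^ (-b) * τ * T ^ (1 / 2 : ℝ)) ^ 2 ≤
        (C * N ^ (1 / 2 : ℝ)) ^ 2 := by
      gcongr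
    have e2 : (K ^ (2 / 3 : ℝ)) ^ 2 = K ^ (4 / 3 : ℝ) := by
      rw [← Real.rpow_natCast (K ^ (2 / 3 : ℝ)) 2, ← Real.rpow_mul hK0.le]
      norm_num
    have e3 : (z ^ (-b)) ^ 2 = z ^ (-(2 * b)) := by
      rw [← Real.rpow_natCast (z ^ (-b)) 2, ← Real.rpow_mul hz0.le]
      congr 1
      push_cast
      ring
    have e4 : (N ^ (1 / 2 : ℝ)) ^ 2 = N := by
      rw [← Real.rpow_natCast (N ^ (1 / 2 : ℝ)) 2, ← Real.rpow_mul hN.le]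
      norm_num
    have e5 : (T ^ (1 / 2 : ℝ)) ^ 2 = T := by
      rw [← Real.rpow_natCast (T ^ (1 / 2 : ℝ)) 2, ← Real.rpow_mul hT.le]
      norm_num
    rw [mul_pow, mul_pow, mul_pow, mul_pow, e2, e3, e4, e5] at h1
    exact h1

end Vale.Agent.P054.T3.H226
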