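import Mathlib

set_option autoImplicit false
set_option linter.all false

/-!
# P054 / T3 / H226: the functional `Φ` for product vertex sets (`n = 2`)

`Phi b N T = N^(1-b) max((N T)^(1/2), N^(2/3))`.
-/

namespace Vale.Agent.P054.T3.H226

open Finset

/-- the functional -/
noncomputable def Phi (b N T : ℝ) : ℝ := N ^ (1 - b) * max ((N * T) ^ (1 / 2 : ℝ)) (N ^ (2 / 3 : ℝ))

theorem Phi_pos {b N T : ℝ} (hN : 0 < N) : 0 < Phi b N T :=
  mul_pos (Real.rpow_pos_of_pos hN _)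
    (lt_of_lt_of_le (Real.rpow_pos_of_pos hN _) (le_max_right _ _))

theorem Phi_ge_left {b N T : ℝ} (hN : 0 < N) :
    N ^ (1 - b) * (N * T) ^ (1 / 2 : ℝ) ≤ Phi b N T :=
  mul_le_mul_of_nonneg_left (le_max_left _ _) (Real.rpow_pos_of_pos hN _).le

theorem Phi_ge_right {b N T : ℝ} (hN : 0 < N) :
    N ^ (1 - b) * N ^ (2 / 3 : ℝ) ≤ Phi b N T :=
  mul_le_mul_of_nonneg_left (le_max_right _ _) (Real.rpow_pos_of_pos hN _).le

/-- comparison of two values of the functional -/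
theorem Phi_le {b N T N' T' : ℝ} (hN : 0 < N) (hT : 0 < T) (hN' : 0 < N') (hT' : 0 ≤ T') :
    Phi b N' T' ≤ Phi b N T *
      ((N' / N) ^ (3 / 2 - b) * (T' / T) ^ (1 / 2 : ℝ) + (N' / N) ^ (5 / 3 - b)) := by
  set u : ℝ := N' / N with hu
  set v : ℝ := T' / T with hv
  have hu0 : 0 < u := div_pos hN' hN
  have hv0 : 0 ≤ v := div_nonneg hT' hT.le
  have e1 : N' = N * u := by rw [hu]; field_simp
  have e2 : T' = T * v := by rw [hv]; field_simp
  have h1 : N' ^ (1 - b) * (N' * T') ^ (1 / 2 : ℝ) =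
      (N ^ (1 - b) * (N * T) ^ (1 / 2 : ℝ)) * (u ^ (3 / 2 - b) * v ^ (1 / 2 : ℝ)) := by
    rw [e1, e2, show N * u * (T * v) = (N * T) * (u * v) by ring,
      Real.mul_rpow hN.le hu0.le, Real.mul_rpow (by positivity) (by positivity),
      Real.mul_rpow hu0.le hv0, show (3 / 2 - b : ℝ) = (1 - b) + 1 / 2 by ring,
      Real.rpow_add hu0]
    ring
  have h2 : N' ^ (1 - b) * N' ^ (2 / 3 : ℝ) =
      (N ^ (1 - b) * N ^ (2 / 3 : ℝ)) * u ^ (5 / 3 - b) := by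
    rw [e1, Real.mul_rpow hN.le hu0.le, Real.mul_rpow hN.le hu0.le,
      show (5 / 3 - b : ℝ) = (1 - b) + 2 / 3 by ring, Real.rpow_add hu0]
    ring
  have h3 : Phi b N' T' ≤ N' ^ (1 - b) * (N' * T') ^ (1 / 2 : ℝ) + N' ^ (1 - b) * N' ^ (2 / 3 : ℝ) := by
    rw [← mul_add, Phi]
    apply mul_le_mul_of_nonneg_left _ (Real.rpow_pos_of_pos hN' _).le
    apply max_le
    · have : 0 ≤ N' ^ (2 / 3 : ℝ) := by positivity
      linarith
    · have : 0 ≤ (N' * T') ^ (1 / 2 : ℝ) := by positivity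
      linarith
  have h4 := Phi_ge_left (b := b) (T := T) hN
  have h5 := Phi_ge_right (b := b) (T := T) hN
  calc Phi b N' T' ≤ N' ^ (1 - b) * (N' * T') ^ (1 / 2 : ℝ) + N' ^ (1 - b) * N' ^ (2 / 3 : ℝ) := h3
    _ = (N ^ (1 - b) * (N * T) ^ (1 / 2 : ℝ)) * (u ^ (3 / 2 - b) * v ^ (1 / 2 : ℝ)) +
        (N ^ (1 - b) * N ^ (2 / 3 : ℝ)) * u ^ (5 / 3 - b) := by rw [h1, h2]
    _ ≤ Phi b N T * (u ^ (3 / 2 - b) * v ^ (1 / 2 : ℝ)) + Phi b N T * u ^ (5 / 3 - b) := by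
        gcongr
    _ = _ := by ring

variable {α : Type*} [DecidableEq α]

/-- families of edges on product sets -/
structure EdgeFam (E : Finset α → Finset α → Finset ((α × α) × (α × α))) : Prop where
  mem : ∀ X Y, ∀ e ∈ E X Y, e.1 ∈ X ×ˢ Y ∧ e.2 ∈ X ×ˢ Y
  res : ∀ X Y X' Y', X' ⊆ X → Y' ⊆ Y → ∀ e ∈ E X Y, e.1 ∈ X' ×ˢ Y' → e.2 ∈ X' ×ˢ Y' → e ∈ E X' Y'

/-- **the extremal product set** -/
structure Ext2 (E : Finset α → Finset α → Finset ((α × α) × (α × α))) (T : Finset α → ℝ)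
    (P X Y : Finset α) (b w : ℝ) : Prop where
  hX : X ⊆ P
  hY : Y ⊆ P
  big : w ≤ (X.card : ℝ) * Y.card
  max : ∀ X' ⊆ P, ∀ Y' ⊆ P, w ≤ (X'.card : ℝ) * Y'.card →
    ((E X' Y').card : ℝ) * Phi b (X.card * Y.card) (T X + T Y) ≤
      ((E X Y).card : ℝ) * Phi b (X'.card * Y'.card) (T X' + T Y')

theorem exists_ext2 (E : Finset α → Finset α → Finset ((α × α) × (α × α))) (T : Finset α → ℝ)
    (P : Finset α) (b w : ℝ) (hw : 0 < w) (hP : w ≤ (P.card : ℝ) * P.card) :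
    ∃ X Y, Ext2 E T P X Y b w := by
  classical
  let C : Finset (Finset α × Finset α) :=
    (P.powerset ×ˢ P.powerset).filter fun q => w ≤ (q.1.card : ℝ) * q.2.card
  have hC : C.Nonempty := ⟨(P, P), by simp [C, hP]⟩
  obtain ⟨⟨X, Y⟩, hXY, hmax⟩ := Finset.exists_max_image C
    (fun q => ((E q.1 q.2).card : ℝ) / Phi b (q.1.card * q.2.card) (T q.1 + T q.2)) hC
  simp only [C, mem_filter, mem_product, mem_powerset] at hXY
  refine ⟨X, Y, hXY.1.1, hXY.1.2, hXY.2, fun X' hX' Y' hY' hw' => ?_⟩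
  have h1 := hmax (X', Y') (by simp [C, hX', hY', hw'])
  simp only at h1
  have h2 : 0 < Phi b ((X.card : ℝ) * Y.card) (T X + T Y) := Phi_pos (lt_of_lt_of_le hw hXY.2)
  have h3 : 0 < Phi b ((X'.card : ℝ) * Y'.card) (T X' + T Y') := Phi_pos (lt_of_lt_of_le hw hw')
  rw [div_le_div_iff₀ h3 h2] at h1
  exact h1

end Vale.Agent.P054.T3.H226
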