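import Vale.Agent.P054.T3.H226.Weight

set_option autoImplicit false
set_option linter.all false

/-!
# P054 / T3 / H226: the weight `w` for finite sets of points, via polynomials of degree `≤ D`
-/

namespace Vale.Agent.P054.T3.H226

open Finset Matrix Module
open scoped RealInnerProductSpace

/-- exponent vectors of degree `≤ D` -/
noncomputable def mon (d D : ℕ) : Finset (Fin d →₀ ℕ) :=
  (range (D + 1)).biUnion fun j => (univ : Finset (Fin d)).finsuppAntidiag j

theorem mem_mon {d D : ℕ} (m : Fin d →₀ ℕ) : m ∈ mon d D ↔ ∑ i, m i ≤ D := by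
  rw [mon, mem_biUnion]
  constructor
  · rintro ⟨j, hj, hm⟩
    rw [mem_finsuppAntidiag] at hm
    rw [mem_range] at hj
    have h1 : ∑ i, m i = j := hm.1
    omega
  · intro h
    refine ⟨∑ i, m i, mem_range.2 (by omega), ?_⟩
    rw [mem_finsuppAntidiag]
    exact ⟨rfl, subset_univ _⟩

theorem card_mon (d D : ℕ) : (mon d D).card = (D + d).choose d := by
  classical
  have h1 : (mon d D).card = ∑ j ∈ range (D + 1), (d + j - 1).choose j := by
    rw [mon, card_biUnion]
    · refine Finset.sum_congr rfl fun j _ => ?_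
      rw [card_finsuppAntidiag_nat_eq_choose, card_univ, Fintype.card_fin]
    · intro i _ j _ hij
      rw [Function.onFun, Finset.disjoint_left]
      intro m hm hm'
      rw [mem_finsuppAntidiag] at hm hm'
      exact hij (hm.1.symm.trans hm'.1)
  rw [h1]
  rcases d with _ | d
  · rw [Nat.choose_zero_right, Finset.sum_range_succ', Finset.sum_eq_zero]
    · simp
    · intro j _
      exact Nat.choose_eq_zero_of_lt (by omega)
  · have h2 : ∀ j, (d + 1 + j - 1).choose j = (j + d).choose d := by
      intro j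
      rw [show d + 1 + j - 1 = j + d by omega, Nat.choose_symm_add]
    rw [Finset.sum_congr rfl fun j _ => h2 j, Nat.sum_range_add_choose]
    congr 1

/-- the vector of the monomials at a point -/
noncomputable def mv {d : ℕ} (D : ℕ) (p : Fin d → ℝ) : ↥(mon d D) → ℝ := fun m => ∏ i, p i ^ (m.1 i)

theorem mv_ne_zero {d : ℕ} (D : ℕ) (p : Fin d → ℝ) : mv D p ≠ 0 := by
  intro h
  have h1 := congrFun h ⟨0, (mem_mon _).2 (by simp)⟩
  simp [mv] at h1

/-- the polynomial with given coefficients -/
noncomputable def pol {d D : ℕ} (x : ↥(mon d D) → ℝ) : MvPolynomial (Fin d) ℝ :=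
  ∑ m, MvPolynomial.monomial m.1 (x m)

theorem coeff_pol {d D : ℕ} (x : ↥(mon d D) → ℝ) (m : ↥(mon d D)) :
    MvPolynomial.coeff m.1 (pol x) = x m := by
  classical
  rw [pol, MvPolynomial.coeff_sum, Finset.sum_eq_single m]
  · rw [MvPolynomial.coeff_monomial, if_pos rfl]
  · intro b _ hb
    rw [MvPolynomial.coeff_monomial, if_neg]
    exact fun h => hb (Subtype.ext h)
  · intro h
    exact absurd (mem_univ _) h

theorem pol_ne_zero {d D : ℕ} {x : ↥(mon d D) → ℝ} (hx : x ≠ 0) : pol x ≠ 0 := by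
  intro h
  apply hx
  funext m
  rw [← coeff_pol x m, h]
  simp

theorem eval_pol {d D : ℕ} (x : ↥(mon d D) → ℝ) (p : Fin d → ℝ) :
    MvPolynomial.eval p (pol x) = mv D p ⬝ᵥ x := by
  rw [pol, map_sum, dotProduct]
  refine Finset.sum_congr rfl fun m _ => ?_
  rw [MvPolynomial.eval_monomial, mv, mul_comm]
  congr 1
  rw [Finsupp.prod_fintype]
  intro i
  exact pow_zero _

theorem totalDegree_pol {d D : ℕ} (x : ↥(mon d D) → ℝ) : (pol x).totalDegree ≤ D := by
  rw [pol]
  refine MvPolynomial.totalDegree_finsetSum_le fun m _ => ?_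
  refine (MvPolynomial.totalDegree_monomial_le _ _).trans ?_
  have := (mem_mon m.1).1 m.2
  rw [Finsupp.sum_fintype _ _ (fun _ => rfl)]
  exact this

/-- a polynomial of degree `≤ D` is the combination of the monomials of `mon` -/
theorem eval_eq_sum {d D : ℕ} (f : MvPolynomial (Fin d) ℝ) (hf : f.totalDegree ≤ D)
    (p : Fin d → ℝ) : MvPolynomial.eval p f = ∑ m, mv D p m * MvPolynomial.coeff m.1 f := by
  classical
  have h1 : f = pol fun m : ↥(mon d D) => MvPolynomial.coeff m.1 f := by
    ext m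
    by_cases hm : m ∈ mon d D
    · exact (coeff_pol (fun m : ↥(mon d D) => MvPolynomial.coeff m.1 f) ⟨m, hm⟩).symm
    · have h2 : MvPolynomial.coeff m f = 0 := by
        by_contra h3
        have h4 := MvPolynomial.le_totalDegree (MvPolynomial.mem_support_iff.2 h3)
        rw [Finsupp.sum_fintype _ _ (fun _ => rfl)] at h4
        exact hm ((mem_mon m).2 (h4.trans hf))
      rw [h2, pol, MvPolynomial.coeff_sum, Finset.sum_eq_zero]
      intro b _
      rw [MvPolynomial.coeff_monomial, if_neg]
      rintro rfl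
      exact hm b.2
  conv_lhs => rw [h1]
  rw [eval_pol, dotProduct]

/-- the rank of the monomial vectors of the points of a `k`-flat -/
theorem finrank_mv_le {d : ℕ} (D k : ℕ) (A : Set (EuclideanSpace ℝ (Fin d)))
    (hA : finrank ℝ (vectorSpan ℝ A) ≤ k) :
    finrank ℝ (Submodule.span ℝ ((fun p : EuclideanSpace ℝ (Fin d) => mv D (fun i => p i)) '' A)) ≤
      (D + k).choose k := by
  classical
  rcases A.eq_empty_or_nonempty with rfl | ⟨a, ha⟩
  · rw [Set.image_empty, Submodule.span_empty, finrank_bot]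
    exact Nat.zero_le _
  set V := vectorSpan ℝ A with hV
  set r := finrank ℝ V with hr
  let b := Module.finBasis ℝ V
  -- the coordinate polynomials
  let lin : Fin d → MvPolynomial (Fin r) ℝ := fun i =>
    MvPolynomial.C (a i) + ∑ j, MvPolynomial.C ((b j : EuclideanSpace ℝ (Fin d)) i) * MvPolynomial.X j
  have hlin : ∀ i, (lin i).totalDegree ≤ 1 := by
    intro i
    refine (MvPolynomial.totalDegree_add _ _).trans (max_le ?_ ?_)
    · simp
    · refine MvPolynomial.totalDegree_finsetSum_le fun j _ => ?_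
      refine (MvPolynomial.totalDegree_mul _ _).trans ?_
      rw [MvPolynomial.totalDegree_C, MvPolynomial.totalDegree_X]
  let g : ↥(mon d D) → MvPolynomial (Fin r) ℝ := fun m => ∏ i, lin i ^ (m.1 i)
  have hg : ∀ m, (g m).totalDegree ≤ D := by
    intro m
    refine (MvPolynomial.totalDegree_finset_prod _ _).trans ?_
    refine le_trans (Finset.sum_le_sum fun i _ => ?_) ((mem_mon m.1).1 m.2)
    refine (MvPolynomial.totalDegree_pow _ _).trans ?_
    calc m.1 i * (lin i).totalDegree ≤ m.1 i * 1 := Nat.mul_le_mul_left _ (hlin i)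
      _ = m.1 i := mul_one _
  let L : (↥(mon r D) → ℝ) →ₗ[ℝ] (↥(mon d D) → ℝ) :=
    LinearMap.pi fun m => ∑ m' : ↥(mon r D), (MvPolynomial.coeff m'.1 (g m)) • LinearMap.proj m'
  have hL : ∀ x m, L x m = ∑ m' : ↥(mon r D), MvPolynomial.coeff m'.1 (g m) * x m' := by
    intro x m
    simp [L, LinearMap.pi_apply, LinearMap.sum_apply]
  have hsub : Submodule.span ℝ
      ((fun p : EuclideanSpace ℝ (Fin d) => mv D (fun i => p i)) '' A) ≤ LinearMap.range L := by
    rw [Submodule.span_le]
    rintro _ ⟨p, hp, rfl⟩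
    have hpa : p -ᵥ a ∈ V := vsub_mem_vectorSpan ℝ hp ha
    let c : Fin r → ℝ := fun j => b.repr ⟨p -ᵥ a, hpa⟩ j
    have hc : ∀ i, p i = a i + ∑ j, ((b j : EuclideanSpace ℝ (Fin d)) i) * c j := by
      intro i
      have h1 := b.sum_repr ⟨p -ᵥ a, hpa⟩
      have h2 := congrArg (fun z : V => (z : EuclideanSpace ℝ (Fin d)) i) h1
      simp only [Submodule.coe_sum, Submodule.coe_smul, vsub_eq_sub, PiLp.sub_apply] at h2
      rw [WithLp.ofLp_sum, Finset.sum_apply] at h2
      simp only [PiLp.smul_apply, smul_eq_mul] at h2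
      have h3 : ∑ j, ((b j : EuclideanSpace ℝ (Fin d)) i) * c j = p i - a i := by
        rw [← h2]
        exact Finset.sum_congr rfl fun j _ => mul_comm _ _
      rw [h3]
      ring
    refine ⟨mv D c, ?_⟩
    funext m
    rw [hL]
    have h4 : ∑ m' : ↥(mon r D), MvPolynomial.coeff m'.1 (g m) * mv D c m' =
        MvPolynomial.eval c (g m) := by
      rw [eval_eq_sum (g m) (hg m) c]
      exact Finset.sum_congr rfl fun _ _ => mul_comm _ _
    rw [h4]
    simp only [g, mv, map_prod, map_pow]
    refine Finset.prod_congr rfl fun i _ => ?_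
    congr 1
    simp only [lin, map_add, MvPolynomial.eval_C, map_sum, map_mul, MvPolynomial.eval_X]
    exact (hc i).symm
  calc _ ≤ finrank ℝ (LinearMap.range L) := Submodule.finrank_mono hsub
    _ ≤ finrank ℝ (↥(mon r D) → ℝ) := LinearMap.finrank_range_le L
    _ = (D + r).choose r := by
        rw [Module.finrank_fintype_fun_eq_card, Fintype.card_coe, card_mon]
    _ ≤ (D + k).choose k := by
        rw [← Nat.choose_symm_add, ← Nat.choose_symm_add (a := D) (b := k)]
        exact Nat.choose_le_choose _ (by omega)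

/-- **the weight** -/
theorem exists_weight {d D0 : ℕ} (P : Finset (EuclideanSpace ℝ (Fin d))) (hne : P.Nonempty)
    (hP : ∀ f : MvPolynomial (Fin d) ℝ, f ≠ 0 → f.totalDegree ≤ D0 →
      (D0 + d).choose d * (P.filter fun p => MvPolynomial.eval (fun i => p i) f = 0).card < P.card) :
    ∃ w : EuclideanSpace ℝ (Fin d) → EuclideanSpace ℝ (Fin d) → ℝ,
      (∀ x y, 0 ≤ w x y) ∧ (∀ x y, w x y ≤ 1) ∧ (∀ x y, w x y = w y x) ∧
      (∀ x ∈ P, w x x = 1) ∧
      (∀ x ∈ P, ((D0 + d).choose d : ℝ) * ∑ y ∈ P, w x y = P.card) ∧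
      ∀ A ⊆ P, ∀ k, finrank ℝ (vectorSpan ℝ (A : Set (EuclideanSpace ℝ (Fin d)))) ≤ k →
        (A.card : ℝ) ^ 2 ≤ ((D0 + k).choose k : ℝ) * ∑ x ∈ A, ∑ y ∈ A, w x y := by
  classical
  have hcκ : Fintype.card ↥(mon d D0) = (D0 + d).choose d := by
    rw [Fintype.card_coe, card_mon]
  have hcι : Fintype.card ↥P = P.card := Fintype.card_coe P
  haveI : Nonempty ↥P := hne.to_subtype
  haveI : Nonempty ↥(mon d D0) := ⟨⟨0, (mem_mon _).2 (by simp)⟩⟩
  let v : ↥P → ↥(mon d D0) → ℝ := fun p => mv D0 (fun i => p.1 i)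
  obtain ⟨w, hw0, hw1, hws, hwd, hwsum, hwA⟩ := exists_weight_vec v
    (fun i => mv_ne_zero _ _) (by
      intro x hx
      have h1 := hP (pol x) (pol_ne_zero hx) (totalDegree_pol x)
      rw [hcκ, hcι]
      have h2 : (univ.filter fun i : ↥P => v i ⬝ᵥ x = 0).card =
          (P.filter fun p => MvPolynomial.eval (fun i => p i) (pol x) = 0).card := by
        rw [← Finset.card_map (Function.Embedding.subtype _)]
        congr 1
        ext p
        simp only [mem_map, mem_filter, mem_univ, true_and, Function.Embedding.coe_subtype]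
        constructor
        · rintro ⟨q, hq, rfl⟩
          exact ⟨q.2, by rw [eval_pol]; exact hq⟩
        · rintro ⟨hp, hq⟩
          exact ⟨⟨p, hp⟩, by rw [eval_pol] at hq; exact hq, rfl⟩
      rw [h2]
      exact h1)
  let W : EuclideanSpace ℝ (Fin d) → EuclideanSpace ℝ (Fin d) → ℝ := fun x y =>
    if hx : x ∈ P then (if hy : y ∈ P then w ⟨x, hx⟩ ⟨y, hy⟩ else 0) else 0
  have hW : ∀ x y (hx : x ∈ P) (hy : y ∈ P), W x y = w ⟨x, hx⟩ ⟨y, hy⟩ := by
    intro x y hx hy
    simp only [W, dif_pos hx, dif_pos hy]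
  refine ⟨W, fun x y => ?_, fun x y => ?_, fun x y => ?_, fun x hx => ?_, fun x hx => ?_,
    fun A hA k hk => ?_⟩
  · simp only [W]
    split_ifs
    · exact hw0 _ _
    · exact le_rfl
    · exact le_rfl
  · simp only [W]
    split_ifs
    · exact hw1 _ _
    · exact zero_le_one
    · exact zero_le_one
  · simp only [W]
    split_ifs
    · exact hws _ _
    · rfl
    · rfl
    · rfl
  · rw [hW x x hx hx]
    exact hwd _
  · have h1 := hwsum ⟨x, hx⟩
    rw [hcκ, hcι] at h1
    rw [← h1]
    congr 1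
    rw [← Finset.sum_coe_sort]
    exact Finset.sum_congr rfl fun y _ => hW x y.1 hx y.2
  · let A' : Finset ↥P := univ.filter fun x => x.1 ∈ A
    have hmap : A'.map (Function.Embedding.subtype _) = A := by
      ext p
      simp only [A', mem_map, mem_filter, mem_univ, true_and, Function.Embedding.coe_subtype]
      constructor
      · rintro ⟨q, hq, rfl⟩
        exact hq
      · intro hp
        exact ⟨⟨p, hA hp⟩, hp, rfl⟩
    have hcard : A'.card = A.card := by
      conv_rhs => rw [← hmap, Finset.card_map]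
    have hsum : ∀ F : EuclideanSpace ℝ (Fin d) → ℝ, ∑ x ∈ A, F x = ∑ x ∈ A', F x.1 := by
      intro F
      conv_lhs => rw [← hmap, Finset.sum_map]
      rfl
    have h1 := hwA A' ((D0 + k).choose k) (by
      have h2 := finrank_mv_le D0 k (A : Set (EuclideanSpace ℝ (Fin d))) hk
      have h3 : v '' (A' : Set ↥P) =
          (fun p : EuclideanSpace ℝ (Fin d) => mv D0 (fun i => p i)) '' (A : Set _) := by
        ext z
        constructor
        · rintro ⟨p, hp, rfl⟩
          exact ⟨p.1, by simpa [A'] using hp, rfl⟩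
        · rintro ⟨p, hp, rfl⟩
          exact ⟨⟨p, hA hp⟩, by simpa [A'] using hp, rfl⟩
      rw [h3]
      exact h2)
    rw [hcard] at h1
    rw [hsum]
    have h4 : ∑ x ∈ A', ∑ y ∈ A, W x.1 y = ∑ x ∈ A', ∑ y ∈ A', w x y := by
      refine Finset.sum_congr rfl fun x _ => ?_
      rw [hsum]
      exact Finset.sum_congr rfl fun y _ => hW x.1 y.1 x.2 y.2
    rw [h4]
    exact_mod_cast h1

end Vale.Agent.P054.T3.H226

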