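import Mathlib

set_option autoImplicit false
set_option linter.all false

/-!
# P054 / T3 / H226: selection of vertices by their degree

In a finite graph with `N` vertices and `e` (directed) edges, average degree `d = e / N`, choose a
threshold `B` such that the vertices `T` of degree between `B d` and `B^(3/2) d` carry at least
`B^(-κ)` of the edges, and the vertices of larger degree much fewer.  (`B = 1`: all vertices of degree
at most `B₀ d`.)
-/

namespace Vale.Agent.P054.T3.H226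

open Finset

section
variable {α : Type*} [DecidableEq α]

/-- number of (out-)neighbours -/
def dg (E : Finset (α × α)) (s : α) : ℕ := (E.filter fun e => e.1 = s).card

theorem dg_le (E : Finset (α × α)) (s : α) : dg E s ≤ E.card := card_le_card (filter_subset _ _)

theorem card_filter_fst (E : Finset (α × α)) (U : Finset α) :
    (E.filter fun e => e.1 ∈ U).card = ∑ s ∈ U, dg E s := by
  classical
  have h : (E.filter fun e => e.1 ∈ U) = U.biUnion fun s => E.filter fun e => e.1 = s := by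
    ext e
    simp only [mem_filter, mem_biUnion]
    constructor
    · rintro ⟨he, hU⟩
      exact ⟨e.1, hU, he, rfl⟩
    · rintro ⟨s, hs, he, rfl⟩
      exact ⟨he, hs⟩
  rw [h, card_biUnion]
  · rfl
  · intro x _ y _ hxy
    rw [Function.onFun, Finset.disjoint_left]
    intro e he he'
    exact hxy ((mem_filter.1 he).2.symm.trans (mem_filter.1 he').2)

theorem card_filter_snd (E : Finset (α × α))
    (hdeg : ∀ s, (E.filter fun e => e.2 = s).card ≤ (E.filter fun e => e.1 = s).card)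
    (U : Finset α) :
    (E.filter fun e => e.2 ∈ U).card ≤ (E.filter fun e => e.1 ∈ U).card := by
  classical
  rw [card_filter_fst]
  have h : (E.filter fun e => e.2 ∈ U) = U.biUnion fun s => E.filter fun e => e.2 = s := by
    ext e
    simp only [mem_filter, mem_biUnion]
    constructor
    · rintro ⟨he, hU⟩
      exact ⟨e.2, hU, he, rfl⟩
    · rintro ⟨s, hs, he, rfl⟩
      exact ⟨he, hs⟩
  rw [h]
  exact card_biUnion_le.trans (Finset.sum_le_sum fun s _ => hdeg s)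

/-- the thresholds `0, B₀, B₀^(3/2), B₀^(9/4), ..` -/
noncomputable def th (B₀ : ℝ) (j : ℕ) : ℝ := if j = 0 then 0 else B₀ ^ ((3 / 2 : ℝ) ^ (j - 1))

theorem th_zero (B₀ : ℝ) : th B₀ 0 = 0 := if_pos rfl

theorem th_succ (B₀ : ℝ) (j : ℕ) : th B₀ (j + 1) = B₀ ^ ((3 / 2 : ℝ) ^ j) := by
  rw [th, if_neg (Nat.succ_ne_zero j), Nat.add_sub_cancel]

theorem th_one (B₀ : ℝ) : th B₀ 1 = B₀ := by rw [th_succ, pow_zero, Real.rpow_one]

open scoped Classical in
/-- vertices of large degree -/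
noncomputable def UU (V : Finset α) (E : Finset (α × α)) (B₀ : ℝ) (j : ℕ) : Finset α :=
  V.filter fun s => th B₀ j * E.card < (dg E s : ℝ) * V.card

/-- the edges at the vertices of large degree; all edges for `j = 0` -/
noncomputable def aa (V : Finset α) (E : Finset (α × α)) (B₀ : ℝ) (j : ℕ) : ℕ :=
  if j = 0 then E.card else (E.filter fun x => x.1 ∈ UU V E B₀ j).card

theorem aa_zero (V : Finset α) (E : Finset (α × α)) (B₀ : ℝ) : aa V E B₀ 0 = E.card := if_pos rfl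

theorem aa_succ (V : Finset α) (E : Finset (α × α)) (B₀ : ℝ) (j : ℕ) :
    aa V E B₀ (j + 1) = (E.filter fun x => x.1 ∈ UU V E B₀ (j + 1)).card :=
  if_neg (Nat.succ_ne_zero j)

theorem aa_le (V : Finset α) (E : Finset (α × α)) (B₀ : ℝ) (j : ℕ) : aa V E B₀ j ≤ E.card := by
  rcases j with _ | j
  · rw [aa_zero]
  · rw [aa_succ]
    exact card_le_card (filter_subset _ _)

/-- the thresholds tend to infinity -/
theorem exists_aa_zero (V : Finset α) (E : Finset (α × α)) (hne : E.Nonempty) {B₀ : ℝ}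
    (hB₀ : 1 < B₀) : ∃ j, aa V E B₀ (j + 1) = 0 := by
  have he0 : (1 : ℝ) ≤ (E.card : ℝ) := by exact_mod_cast hne.card_pos
  have hB0 : 0 < B₀ := by linarith
  obtain ⟨m, hm⟩ := pow_unbounded_of_one_lt ((V.card : ℝ) * E.card) hB₀
  obtain ⟨j, hj⟩ : ∃ j : ℕ, (m : ℝ) < (3 / 2 : ℝ) ^ j :=
    pow_unbounded_of_one_lt (m : ℝ) (by norm_num)
  refine ⟨j, ?_⟩
  have h1 : UU V E B₀ (j + 1) = ∅ := by
    rw [Finset.eq_empty_iff_forall_notMem]
    intro s hs
    have h2 := (mem_filter.1 hs).2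
    rw [th_succ] at h2
    have h3 : (dg E s : ℝ) ≤ E.card := by exact_mod_cast dg_le E s
    have h4 : (V.card : ℝ) * E.card < B₀ ^ ((3 / 2 : ℝ) ^ j) := by
      refine hm.trans_le ?_
      rw [← Real.rpow_natCast]
      exact Real.rpow_le_rpow_of_exponent_le hB₀.le hj.le
    have h6 : (dg E s : ℝ) * V.card ≤ E.card * V.card :=
      mul_le_mul_of_nonneg_right h3 (Nat.cast_nonneg _)
    have h7 : B₀ ^ ((3 / 2 : ℝ) ^ j) ≤ B₀ ^ ((3 / 2 : ℝ) ^ j) * E.card :=
      le_mul_of_one_le_right (Real.rpow_nonneg hB0.le _) he0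
    nlinarith
  rw [aa_succ, h1]
  simp

/-- the first index with `a (j + 1) ≤ a j / 10` -/
theorem exists_first (V : Finset α) (E : Finset (α × α)) (hne : E.Nonempty) {B₀ : ℝ}
    (hB₀ : 1 < B₀) : ∃ j, 10 * aa V E B₀ (j + 1) ≤ aa V E B₀ j ∧ E.card ≤ 10 ^ j * aa V E B₀ j := by
  classical
  have hex : ∃ j, 10 * aa V E B₀ (j + 1) ≤ aa V E B₀ j := by
    obtain ⟨j, hj⟩ := exists_aa_zero V E hne hB₀
    exact ⟨j, by rw [hj]; omega⟩
  refine ⟨Nat.find hex, Nat.find_spec hex, ?_⟩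
  have hmin : ∀ i < Nat.find hex, aa V E B₀ i < 10 * aa V E B₀ (i + 1) := fun i hi =>
    not_le.1 (Nat.find_min hex hi)
  have h : ∀ i ≤ Nat.find hex, E.card ≤ 10 ^ i * aa V E B₀ i := by
    intro i hi
    induction i with
    | zero => rw [aa_zero]; simp
    | succ i ih =>
      have h1 := ih (by omega)
      have h2 := hmin i (by omega)
      calc E.card ≤ 10 ^ i * aa V E B₀ i := h1
        _ ≤ 10 ^ i * (10 * aa V E B₀ (i + 1)) := Nat.mul_le_mul_left _ h2.le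
        _ = 10 ^ (i + 1) * aa V E B₀ (i + 1) := by ring
  exact h _ le_rfl

open scoped Classical in
/-- vertices of small degree -/
noncomputable def SS (V : Finset α) (E : Finset (α × α)) (B₀ : ℝ) (j : ℕ) : Finset α :=
  V.filter fun s => (dg E s : ℝ) * V.card ≤ th B₀ (j + 1) * E.card

open scoped Classical in
/-- vertices of degree between two thresholds -/
noncomputable def TT (V : Finset α) (E : Finset (α × α)) (B₀ : ℝ) (j : ℕ) : Finset α :=
  (SS V E B₀ j).filter fun s => j = 0 ∨ th B₀ j * E.card < (dg E s : ℝ) * V.card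

theorem mem_SS (V : Finset α) (E : Finset (α × α)) (B₀ : ℝ) (j : ℕ) {s : α} (hs : s ∈ V) :
    s ∈ SS V E B₀ j ↔ s ∉ UU V E B₀ (j + 1) := by
  simp only [SS, UU, mem_filter, not_and, not_lt]
  exact ⟨fun h _ => h.2, fun h => ⟨hs, h hs⟩⟩

/-- edges whose first vertex is in `T` -/
theorem card_fst_TT (V : Finset α) (E : Finset (α × α)) (hE : ∀ e ∈ E, e.1 ∈ V) (B₀ : ℝ) (j : ℕ) :
    aa V E B₀ j ≤ (E.filter fun x => x.1 ∈ TT V E B₀ j).card + aa V E B₀ (j + 1) := by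
  classical
  rw [aa_succ]
  rcases j with _ | i
  · rw [aa_zero]
    refine (card_le_card ?_).trans (card_union_le _ _)
    intro x hx
    rw [mem_union, mem_filter, mem_filter]
    by_cases h2 : x.1 ∈ UU V E B₀ (0 + 1)
    · right; exact ⟨hx, h2⟩
    · left
      exact ⟨hx, mem_filter.2 ⟨(mem_SS V E B₀ 0 (hE x hx)).2 h2, Or.inl rfl⟩⟩
  · rw [aa_succ]
    refine (card_le_card ?_).trans (card_union_le _ _)
    intro x hx
    obtain ⟨hxE, hxU⟩ := mem_filter.1 hx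
    rw [mem_union, mem_filter, mem_filter]
    by_cases h2 : x.1 ∈ UU V E B₀ (i + 1 + 1)
    · right; exact ⟨hxE, h2⟩
    · left
      exact ⟨hxE, mem_filter.2 ⟨(mem_SS V E B₀ (i + 1) (hE x hxE)).2 h2,
        Or.inr (mem_filter.1 hxU).2⟩⟩

/-- edges in `T × S₀` -/
theorem card_TS (V : Finset α) (E : Finset (α × α)) (hE : ∀ e ∈ E, e.1 ∈ V ∧ e.2 ∈ V)
    (hdeg : ∀ s, (E.filter fun e => e.2 = s).card ≤ (E.filter fun e => e.1 = s).card)
    (B₀ : ℝ) (j : ℕ) :
    aa V E B₀ j ≤ (E.filter fun x => x.1 ∈ TT V E B₀ j ∧ x.2 ∈ SS V E B₀ j).card +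
      2 * aa V E B₀ (j + 1) := by
  classical
  have h1 := card_fst_TT V E (fun e he => (hE e he).1) B₀ j
  have h2 : (E.filter fun x => x.1 ∈ TT V E B₀ j) ⊆
      (E.filter fun x => x.1 ∈ TT V E B₀ j ∧ x.2 ∈ SS V E B₀ j) ∪
      (E.filter fun x => x.2 ∈ UU V E B₀ (j + 1)) := by
    intro x hx
    obtain ⟨hxE, hxT⟩ := mem_filter.1 hx
    rw [mem_union, mem_filter, mem_filter]
    by_cases h2 : x.2 ∈ UU V E B₀ (j + 1)
    · right; exact ⟨hxE, h2⟩
    · left; exact ⟨hxE, hxT, (mem_SS V E B₀ j (hE x hxE).2).2 h2⟩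
  have h3 := (card_le_card h2).trans (card_union_le _ _)
  have h4 := card_filter_snd E hdeg (UU V E B₀ (j + 1))
  rw [← aa_succ] at h4
  omega

/-- number of vertices of `T` -/
theorem card_TT (V : Finset α) (E : Finset (α × α)) {B₀ : ℝ} (i : ℕ) :
    ((TT V E B₀ (i + 1)).card : ℝ) * (th B₀ (i + 1) * E.card) ≤ aa V E B₀ (i + 1) * V.card := by
  classical
  have h1 : ((TT V E B₀ (i + 1)).card : ℝ) * (th B₀ (i + 1) * E.card) ≤
      ∑ s ∈ TT V E B₀ (i + 1), (dg E s : ℝ) * V.card := by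
    rw [← nsmul_eq_mul]
    refine Finset.card_nsmul_le_sum _ _ _ fun s hs => ?_
    have h2 := (mem_filter.1 hs).2
    rcases h2 with h2 | h2
    · omega
    · exact h2.le
  have h2 : ∑ s ∈ TT V E B₀ (i + 1), (dg E s : ℝ) * V.card =
      ((E.filter fun x => x.1 ∈ TT V E B₀ (i + 1)).card : ℝ) * V.card := by
    rw [card_filter_fst, ← Finset.sum_mul]
    push_cast
    rfl
  rw [h2] at h1
  refine h1.trans (mul_le_mul_of_nonneg_right ?_ (Nat.cast_nonneg _))
  rw [aa_succ]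
  refine Nat.cast_le.2 (card_le_card ?_)
  intro x hx
  rw [mem_filter] at hx ⊢
  refine ⟨hx.1, ?_⟩
  have h4 := mem_filter.1 hx.2
  rcases h4.2 with h5 | h5
  · omega
  · exact mem_filter.2 ⟨(mem_filter.1 h4.1).1, h5⟩

/-- `10^(i+1) ≤ (B₀^κ)^((3/2)^i)` -/
theorem ten_pow_le {B₀ κ : ℝ} (hB₀ : 1 < B₀) (hκB : 100 ≤ B₀ ^ κ) (i : ℕ) :
    (10 : ℝ) ^ (i + 1) ≤ (th B₀ (i + 1)) ^ κ := by
  have hB0 : 0 < B₀ := by linarith
  rw [th_succ, ← Real.rpow_mul hB0.le, mul_comm, Real.rpow_mul hB0.le]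
  have hb : 1 + (i : ℝ) * (1 / 2) ≤ (1 + 1 / 2 : ℝ) ^ i := one_add_mul_le_pow (by norm_num) i
  have h1 : ((i : ℝ) + 1) / 2 ≤ (3 / 2 : ℝ) ^ i := by
    have : (1 + 1 / 2 : ℝ) = 3 / 2 := by norm_num
    rw [this] at hb
    linarith
  calc (10 : ℝ) ^ (i + 1) = (100 : ℝ) ^ (((i : ℝ) + 1) / 2) := by
        have h100 : (100 : ℝ) = 10 ^ (2 : ℝ) := by norm_num
        rw [h100, ← Real.rpow_mul (by norm_num), ← Real.rpow_natCast]
        congr 1
        push_cast
        ring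
    _ ≤ (100 : ℝ) ^ ((3 / 2 : ℝ) ^ i) := Real.rpow_le_rpow_of_exponent_le (by norm_num) h1
    _ ≤ (B₀ ^ κ) ^ ((3 / 2 : ℝ) ^ i) := Real.rpow_le_rpow (by norm_num) hκB (by positivity)

/-- **selection of the degrees** -/
theorem exists_selection (V : Finset α) (E : Finset (α × α)) (hE : ∀ e ∈ E, e.1 ∈ V ∧ e.2 ∈ V)
    (hdeg : ∀ s, (E.filter fun e => e.2 = s).card ≤ (E.filter fun e => e.1 = s).card)
    (hne : E.Nonempty) {B₀ κ : ℝ} (hB₀ : 1 < B₀) (hκ : 0 < κ) (hκB : 100 ≤ B₀ ^ κ) :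
    ∃ (B ρ : ℝ) (T S₀ : Finset α),
      1 ≤ B ∧ (B = 1 ∨ B₀ ≤ B) ∧ 0 < ρ ∧ ρ ≤ 1 ∧ B ^ (-κ) ≤ ρ ∧ T ⊆ S₀ ∧ S₀ ⊆ V ∧
      (∀ s ∈ S₀, ((E.filter fun e => e.1 = s).card : ℝ) * V.card ≤
        max B₀ (B ^ (3 / 2 : ℝ)) * E.card) ∧
      (T.card : ℝ) * B ≤ ρ * V.card ∧
      (8 / 10) * ρ * E.card ≤ ((E.filter fun e => e.1 ∈ T ∧ e.2 ∈ S₀).card : ℝ) := by
  classical
  have he0 : (0 : ℝ) < (E.card : ℝ) := by exact_mod_cast hne.card_pos
  have hB0 : 0 < B₀ := by linarith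
  obtain ⟨j, hj, hj'⟩ := exists_first V E hne hB₀
  have hj1 : (10 : ℝ) * aa V E B₀ (j + 1) ≤ aa V E B₀ j := by exact_mod_cast hj
  have hj2 : (E.card : ℝ) ≤ 10 ^ j * aa V E B₀ j := by exact_mod_cast hj'
  have ha0 : (0 : ℝ) < aa V E B₀ j := by
    by_contra h
    have : (aa V E B₀ j : ℝ) = 0 := le_antisymm (not_lt.1 h) (Nat.cast_nonneg _)
    rw [this, mul_zero] at hj2
    linarith
  have ha1 : (aa V E B₀ j : ℝ) ≤ E.card := by exact_mod_cast aa_le V E B₀ j
  have hTS := card_TS V E hE hdeg B₀ j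
  have hTS' : (aa V E B₀ j : ℝ) ≤
      ((E.filter fun x => x.1 ∈ TT V E B₀ j ∧ x.2 ∈ SS V E B₀ j).card : ℝ) +
      2 * aa V E B₀ (j + 1) := by exact_mod_cast hTS
  have hedges : (8 / 10) * ((aa V E B₀ j : ℝ) / E.card) * E.card ≤
      ((E.filter fun e => e.1 ∈ TT V E B₀ j ∧ e.2 ∈ SS V E B₀ j).card : ℝ) := by
    rw [mul_assoc, div_mul_cancel₀ _ he0.ne']
    linarith
  have hρ0 : 0 < (aa V E B₀ j : ℝ) / E.card := div_pos ha0 he0
  have hρ1 : (aa V E B₀ j : ℝ) / E.card ≤ 1 := (div_le_one he0).2 ha1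
  rcases j with _ | i
  · refine ⟨1, (aa V E B₀ 0 : ℝ) / E.card, TT V E B₀ 0, SS V E B₀ 0, le_rfl, Or.inl rfl, hρ0, hρ1,
      ?_, filter_subset _ _, filter_subset _ _, ?_, ?_, hedges⟩
    · rw [Real.one_rpow, aa_zero, div_self he0.ne']
    · intro s hs
      have h1 := (mem_filter.1 hs).2
      rw [th_one] at h1
      exact h1.trans (mul_le_mul_of_nonneg_right (le_max_left _ _) he0.le)
    · rw [mul_one, aa_zero, div_self he0.ne', one_mul]
      exact_mod_cast card_le_card ((filter_subset _ _).trans (filter_subset _ _))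
  · have hthge : B₀ ≤ th B₀ (i + 1) := by
      rw [th_succ]
      calc B₀ = B₀ ^ (1 : ℝ) := (Real.rpow_one _).symm
        _ ≤ _ := Real.rpow_le_rpow_of_exponent_le hB₀.le (one_le_pow₀ (by norm_num))
    have hth0 : 0 < th B₀ (i + 1) := by linarith
    refine ⟨th B₀ (i + 1), (aa V E B₀ (i + 1) : ℝ) / E.card, TT V E B₀ (i + 1), SS V E B₀ (i + 1),
      by linarith, Or.inr hthge, hρ0, hρ1, ?_, filter_subset _ _, filter_subset _ _, ?_, ?_,
      hedges⟩
    · rw [Real.rpow_neg hth0.le, le_div_iff₀ he0]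
      have h1 := ten_pow_le hB₀ hκB i
      have h2 : 0 < th B₀ (i + 1) ^ κ := Real.rpow_pos_of_pos hth0 _
      rw [inv_mul_le_iff₀ h2]
      exact hj2.trans (mul_le_mul_of_nonneg_right h1 ha0.le)
    · intro s hs
      have h1 := (mem_filter.1 hs).2
      refine h1.trans (mul_le_mul_of_nonneg_right ?_ he0.le)
      refine le_trans (le_of_eq ?_) (le_max_right _ _)
      rw [th_succ, th_succ, ← Real.rpow_mul hB0.le, pow_succ]
    · have h1 := card_TT V E (B₀ := B₀) i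
      rw [div_mul_eq_mul_div, le_div_iff₀ he0]
      calc ((TT V E B₀ (i + 1)).card : ℝ) * th B₀ (i + 1) * E.card
          = ((TT V E B₀ (i + 1)).card : ℝ) * (th B₀ (i + 1) * E.card) := by ring
        _ ≤ _ := h1

end

end Vale.Agent.P054.T3.H226
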