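import Vale.Agent.P054.T3.H226.Cells2
import Vale.Agent.P054.T3.H190.FlagE
import Vale.Agent.P054.T3.H900.DetEx

set_option autoImplicit false
set_option linter.all false

/-!
# P054 / T3 / H226: the start for `n = 2` (extremal product of two sets of points of `ℝ³`)
-/

namespace Vale.Agent.P054.T3.H226

open Finset Module MvPolynomial
open Vale.Agent.P054.T2.H686 (E dists)
open Vale.Agent.P054.T3.H533 (dn Det dn_mono)
open Vale.Agent.P054.T3.H190 (W adjE W_mono W_full_ge)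

/-- the functional of `X × Y` -/
noncomputable def WW (X Y : Finset (E 2)) : ℝ := (W adjE (X ×ˢ Y) : ℝ)

/-- the number of distances -/
noncomputable def TT2 (a : Fin 4 → E 2) (X : Finset (E 2)) : ℝ := (dn a X : ℝ)

theorem WW_mono {X₁ Y₁ X₂ Y₂ : Finset (E 2)} (h1 : X₁ ⊆ X₂) (h2 : Y₁ ⊆ Y₂) :
    WW X₁ Y₁ ≤ WW X₂ Y₂ := by
  unfold WW
  exact_mod_cast W_mono (Finset.product_subset_product h1 h2)

open scoped Classical in
/-- the sum over the classes of `X × Y` -/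
theorem sum_classes_le {J : ℕ} (f g : Fin J → MvPolynomial (Fin 3) ℝ) (X Y : Finset (E 2)) :
    ∑ c ∈ (X ×ˢ Y).image (fun s => (clf (n := 2) f s.1, clf (n := 2) g s.2)),
      (W adjE ((X ×ˢ Y).filter fun s => (clf (n := 2) f s.1, clf (n := 2) g s.2) = c) : ℝ) ≤
      ∑ c ∈ X.image (clf (n := 2) f), ∑ c' ∈ Y.image (clf (n := 2) g),
        WW (X.filter fun x => clf (n := 2) f x = c) (Y.filter fun x => clf (n := 2) g x = c') := by
  rw [← Finset.sum_product']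
  have h1 : (X ×ˢ Y).image (fun s => (clf (n := 2) f s.1, clf (n := 2) g s.2)) ⊆
      X.image (clf (n := 2) f) ×ˢ Y.image (clf (n := 2) g) := by
    intro c hc
    obtain ⟨s, hs, rfl⟩ := mem_image.1 hc
    obtain ⟨h2, h3⟩ := mem_product.1 hs
    exact mem_product.2 ⟨mem_image_of_mem _ h2, mem_image_of_mem _ h3⟩
  refine (Finset.sum_le_sum_of_subset_of_nonneg h1 fun c _ _ => Nat.cast_nonneg _).trans ?_
  refine Finset.sum_le_sum fun c _ => ?_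
  unfold WW
  refine Nat.cast_le.2 (W_mono ?_)
  intro s hs
  obtain ⟨h2, h3⟩ := mem_filter.1 hs
  obtain ⟨h4, h5⟩ := mem_product.1 h2
  rw [Prod.ext_iff] at h3
  exact mem_product.2 ⟨mem_filter.2 ⟨h4, h3.1⟩, mem_filter.2 ⟨h5, h3.2⟩⟩

/-- arithmetic of the small cells -/
theorem cells_num {t ε₁ z q : ℝ} (ht : 1 ≤ t) (hε : 0 < ε₁) (ht4 : 32 ≤ t ^ (ε₁ / 4))
    (hz : t ^ (-(ε₁ / 2)) ≤ z) (hq1 : 1 ≤ q) (hq : q ≤ t ^ (ε₁ / 20)) {M : ℝ} (hM0 : 0 ≤ M)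
    (hM : M ≤ 2 * q ^ 3) {u : ℝ} (hu0 : 0 ≤ u) (hu : u ≤ 2 * t ^ (-ε₁) / z) :
    M ^ 2 * (2 * u ^ (3 / 2 - 1 / 24 : ℝ)) ≤ q ^ (6 * (1 / 24) - 7 / 2 : ℝ) := by
  have ht0 : 0 < t := by linarith
  have hq0 : 0 < q := by linarith
  have hz0 : 0 < z := lt_of_lt_of_le (Real.rpow_pos_of_pos ht0 _) hz
  have h1 : u ≤ 2 * t ^ (-(ε₁ / 2)) := by
    refine hu.trans ?_
    rw [div_le_iff₀ hz0]
    calc 2 * t ^ (-ε₁) = 2 * t ^ (-(ε₁ / 2)) * t ^ (-(ε₁ / 2)) := by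
          rw [mul_assoc, ← Real.rpow_add ht0]
          congr 2
          ring
      _ ≤ 2 * t ^ (-(ε₁ / 2)) * z := by gcongr
  have h2 : u ^ (3 / 2 - 1 / 24 : ℝ) ≤ 4 * t ^ (-(35 / 48 * ε₁)) := by
    calc u ^ (3 / 2 - 1 / 24 : ℝ) ≤ (2 * t ^ (-(ε₁ / 2))) ^ (3 / 2 - 1 / 24 : ℝ) :=
          Real.rpow_le_rpow hu0 h1 (by norm_num)
      _ = (2 : ℝ) ^ (3 / 2 - 1 / 24 : ℝ) * t ^ (-(35 / 48 * ε₁)) := by
          rw [Real.mul_rpow (by norm_num) (by positivity), ← Real.rpow_mul ht0.le]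
          congr 2
          ring
      _ ≤ (2 : ℝ) ^ (2 : ℝ) * t ^ (-(35 / 48 * ε₁)) := by
          refine mul_le_mul_of_nonneg_right ?_ (by positivity)
          exact Real.rpow_le_rpow_of_exponent_le (by norm_num) (by norm_num)
      _ = 4 * t ^ (-(35 / 48 * ε₁)) := by norm_num
  have h3 : M ^ 2 ≤ 4 * q ^ 6 := by
    calc M ^ 2 ≤ (2 * q ^ 3) ^ 2 := by gcongr
      _ = 4 * q ^ 6 := by ring
  have e1 : (6 * (1 / 24) - 7 / 2 : ℝ) = -(13 / 4) := by norm_num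
  rw [e1]
  -- `32 q^(37/4) ≤ t^(35 ε₁/48)`
  have h4 : q ^ (37 / 4 : ℝ) ≤ t ^ (37 / 80 * ε₁) := by
    calc q ^ (37 / 4 : ℝ) ≤ (t ^ (ε₁ / 20)) ^ (37 / 4 : ℝ) :=
          Real.rpow_le_rpow hq0.le hq (by norm_num)
      _ = t ^ (37 / 80 * ε₁) := by
          rw [← Real.rpow_mul ht0.le]
          congr 1
          ring
  have h5 : 32 * q ^ (37 / 4 : ℝ) ≤ t ^ (35 / 48 * ε₁) := by
    calc 32 * q ^ (37 / 4 : ℝ) ≤ t ^ (ε₁ / 4) * t ^ (37 / 80 * ε₁) :=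
          mul_le_mul ht4 h4 (by positivity) (by positivity)
      _ = t ^ (ε₁ / 4 + 37 / 80 * ε₁) := by rw [← Real.rpow_add ht0]
      _ ≤ t ^ (35 / 48 * ε₁) := Real.rpow_le_rpow_of_exponent_le ht (by linarith)
  have e2 : q ^ 6 = q ^ (37 / 4 : ℝ) * q ^ (-(13 / 4) : ℝ) := by
    rw [← Real.rpow_add hq0, ← Real.rpow_natCast q 6]
    congr 1
    norm_num
  calc M ^ 2 * (2 * u ^ (3 / 2 - 1 / 24 : ℝ))
      ≤ (4 * q ^ 6) * (2 * (4 * t ^ (-(35 / 48 * ε₁)))) := by gcongr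
    _ = (32 * q ^ (37 / 4 : ℝ)) * t ^ (-(35 / 48 * ε₁)) * q ^ (-(13 / 4) : ℝ) := by
        rw [e2]; ring
    _ ≤ t ^ (35 / 48 * ε₁) * t ^ (-(35 / 48 * ε₁)) * q ^ (-(13 / 4) : ℝ) := by gcongr
    _ = q ^ (-(13 / 4) : ℝ) := by
        rw [← Real.rpow_add ht0]
        norm_num

open scoped Classical in
/-- **the cells** -/
theorem exists_cells2 {P X Y : Finset (E 2)} {a : Fin 4 → E 2} {t : ℕ} {ε₁ η : ℝ}
    (ht : 1 ≤ t) (hε : 0 < ε₁) (hε1 : ε₁ ≤ 1) (hεη : ε₁ ≤ η)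
    (ht4 : 32 ≤ (t : ℝ) ^ (ε₁ / 4)) (htP : (t : ℝ) ≤ P.card)
    (hyp : ∀ f : MvPolynomial (Fin 3) ℝ, f ≠ 0 → (f.totalDegree : ℝ) ≤ (t : ℝ) ^ η →
      ((P.filter fun p => eval (fun i => p i) f = 0).card : ℝ) < (P.card : ℝ) ^ (1 - η))
    (h : ExtW WW (TT2 a) P X Y (1 / 24) ((t : ℝ) ^ (-ε₁) * (P.card : ℝ) ^ 2)) {z : ℝ}
    (hzN : (X.card : ℝ) * Y.card = z * (P.card : ℝ) ^ 2) (hz : (t : ℝ) ^ (-(ε₁ / 2)) ≤ z)
    (m : ℕ) (hm : (2 : ℝ) ^ m ≤ (t : ℝ) ^ (ε₁ / 20)) :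
    ∃ cl : E 2 × E 2 → Option (Fin (3 * m) → Bool) × Option (Fin (3 * m) → Bool),
      (∀ A ⊆ X ×ˢ Y, finrank ℝ (vectorSpan ℝ (A : Set (E 2 × E 2))) ≤ 3 →
        ((A.image cl).card : ℝ) ≤ 1481548 * 8 ^ m) ∧
      ∑ c ∈ (X ×ˢ Y).image cl, (W adjE ((X ×ˢ Y).filter fun s => cl s = c) : ℝ) ≤
        12548 * ((2 : ℝ) ^ m) ^ (-(13 / 4) : ℝ) * W adjE (X ×ˢ Y) := by
  have htr : (1 : ℝ) ≤ t := by exact_mod_cast ht
  have ht0 : (0 : ℝ) < t := by linarith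
  have hp0 : (0 : ℝ) < P.card := by linarith
  set p : ℝ := (P.card : ℝ) with hp
  set w : ℝ := (t : ℝ) ^ (-ε₁) * p ^ 2 with hw
  have hw0 : 0 < w := by rw [hw]; positivity
  have hz0 : 0 < z := lt_of_lt_of_le (Real.rpow_pos_of_pos ht0 _) hz
  have hN0 : 0 < (X.card : ℝ) * Y.card := lt_of_lt_of_le hw0 h.big
  have hXne : X.Nonempty := by
    rw [nonempty_iff_ne_empty]
    rintro rfl
    simp at hN0
  have hYne : Y.Nonempty := by
    rw [nonempty_iff_ne_empty]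
    rintro rfl
    simp at hN0
  have hTX : 0 ≤ TT2 a X := Nat.cast_nonneg _
  have hTpos : ∀ Z : Finset (E 2), Z.Nonempty → 0 < TT2 a Z := by
    intro Z hZ
    unfold TT2 dn
    have h1 : 0 < (Z.image fun x => dist x (a 0)).card := card_pos.2 (hZ.image _)
    have h2 : (Z.image fun x => dist x (a 0)).card ≤
        ∑ i, (Z.image fun x => dist x (a i)).card :=
      Finset.single_le_sum (f := fun i => (Z.image fun x => dist x (a i)).card)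
        (fun i _ => Nat.zero_le _) (Finset.mem_univ 0)
    have h3 : 0 < ∑ i, (Z.image fun x => dist x (a i)).card := lt_of_lt_of_le h1 h2
    exact_mod_cast h3
  have hT : 0 < TT2 a X + TT2 a Y := add_pos (hTpos X hXne) (hTpos Y hYne)
  obtain ⟨f, hf0, hfd, hfc⟩ := exists_part3 X m
  obtain ⟨g, hg0, hgd, hgc⟩ := exists_part3 Y m
  set q : ℝ := (2 : ℝ) ^ m with hq
  have hq1 : 1 ≤ q := by rw [hq]; exact one_le_pow₀ (by norm_num)
  have hq0 : 0 < q := by linarith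
  -- degrees
  have h2m : (2 : ℝ) ^ m ≤ (t : ℝ) ^ (ε₁ / 20) := hm
  have hdeg : (18 : ℝ) * 2 ^ m ≤ (t : ℝ) ^ η := by
    calc (18 : ℝ) * 2 ^ m ≤ (t : ℝ) ^ (ε₁ / 4) * (t : ℝ) ^ (ε₁ / 20) :=
          mul_le_mul (by linarith) hm (by positivity) (by positivity)
      _ = (t : ℝ) ^ (ε₁ / 4 + ε₁ / 20) := by rw [← Real.rpow_add ht0]
      _ ≤ (t : ℝ) ^ η := Real.rpow_le_rpow_of_exponent_le htr (by linarith)
  -- zero classes
  have hnone : ∀ (f : Fin (3 * m) → MvPolynomial (Fin 3) ℝ), (∀ j, f j ≠ 0) →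
      ∑ j, (f j).totalDegree ≤ 18 * 2 ^ m → ∀ Z ⊆ P,
      ((Z.filter fun x => clf (n := 2) f x = none).card : ℝ) < p ^ (1 - η) := by
    intro f hf0 hfd Z hZ
    refine lt_of_le_of_lt ?_ (hyp (∏ j, f j) (Finset.prod_ne_zero_iff.2 fun j _ => hf0 j) ?_)
    · exact_mod_cast card_none f P Z hZ
    · calc ((∏ j, f j).totalDegree : ℝ) ≤ ((∑ j, (f j).totalDegree : ℕ) : ℝ) := by
            exact_mod_cast totalDegree_finset_prod _ _
        _ ≤ ((18 * 2 ^ m : ℕ) : ℝ) := by exact_mod_cast hfd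
        _ = (18 : ℝ) * 2 ^ m := by push_cast; ring
        _ ≤ _ := hdeg
  have hpη : p ^ (1 - η) * p ≤ w := by
    have h1 : p ^ (-η) ≤ (t : ℝ) ^ (-ε₁) := by
      calc p ^ (-η) ≤ p ^ (-ε₁) := Real.rpow_le_rpow_of_exponent_le (by linarith) (by linarith)
        _ ≤ (t : ℝ) ^ (-ε₁) := Real.rpow_le_rpow_of_nonpos ht0 htP (by linarith)
    calc p ^ (1 - η) * p = p ^ (-η) * p ^ 2 := by
          rw [show (1 - η : ℝ) = -η + 1 by ring, Real.rpow_add hp0, Real.rpow_one]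
          ring
      _ ≤ (t : ℝ) ^ (-ε₁) * p ^ 2 := by gcongr
      _ = w := rfl
  have hXp : (X.card : ℝ) ≤ p := by rw [hp]; exact_mod_cast card_le_card h.hX
  have hYp : (Y.card : ℝ) ≤ p := by rw [hp]; exact_mod_cast card_le_card h.hY
  have hX0 : (0 : ℝ) < X.card := by exact_mod_cast hXne.card_pos
  have hY0 : (0 : ℝ) < Y.card := by exact_mod_cast hYne.card_pos
  have hnX : ((X.filter fun x => clf (n := 2) f x = none).card : ℝ) * Y.card < w := by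
    calc ((X.filter fun x => clf (n := 2) f x = none).card : ℝ) * Y.card
        < p ^ (1 - η) * Y.card := mul_lt_mul_of_pos_right (hnone f hf0 hfd X h.hX) hY0
      _ ≤ p ^ (1 - η) * p := by gcongr
      _ ≤ w := hpη
  have hnY : (X.card : ℝ) * (Y.filter fun x => clf (n := 2) g x = none).card < w := by
    calc (X.card : ℝ) * (Y.filter fun x => clf (n := 2) g x = none).card
        < (X.card : ℝ) * p ^ (1 - η) := mul_lt_mul_of_pos_left (hnone g hg0 hgd Y h.hY) hX0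
      _ ≤ p * p ^ (1 - η) := by gcongr
      _ = p ^ (1 - η) * p := mul_comm _ _
      _ ≤ w := hpη
  -- numbers of distances
  have hTsum : ∀ (f : Fin (3 * m) → MvPolynomial (Fin 3) ℝ),
      ∑ j, (f j).totalDegree ≤ 18 * 2 ^ m → ∀ Z : Finset (E 2),
      ∑ c ∈ (Z.image (clf (n := 2) f)).erase none,
        TT2 a (Z.filter fun x => clf (n := 2) f x = c) ≤ 12545 * q ^ 2 * TT2 a Z := by
    intro f hfd Z
    have h1 := sum_dn_clf (n := 2) a f Z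
    have h2 : (2 * (3 * ∑ j, (f j).totalDegree + 2)) ^ 2 + 1 ≤ 12545 * (2 ^ m) ^ 2 := by
      have h3 : 2 * (3 * ∑ j, (f j).totalDegree + 2) ≤ 112 * 2 ^ m := by
        have : 1 ≤ 2 ^ m := Nat.one_le_two_pow
        omega
      calc (2 * (3 * ∑ j, (f j).totalDegree + 2)) ^ 2 + 1 ≤ (112 * 2 ^ m) ^ 2 + (2 ^ m) ^ 2 :=
            Nat.add_le_add (Nat.pow_le_pow_left h3 2) (Nat.one_le_pow _ _ (by positivity))
        _ = 12545 * (2 ^ m) ^ 2 := by ring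
    have h3 : ∑ c ∈ (Z.image (clf (n := 2) f)).erase none,
        dn a (Z.filter fun x => clf (n := 2) f x = c) ≤ 12545 * (2 ^ m) ^ 2 * dn a Z := by
      refine le_trans (le_of_eq ?_) (h1.trans (Nat.mul_le_mul_right _ h2))
      congr!
    have h4 : ((∑ c ∈ (Z.image (clf (n := 2) f)).erase none,
        dn a (Z.filter fun x => clf (n := 2) f x = c) : ℕ) : ℝ) ≤
        ((12545 * (2 ^ m) ^ 2 * dn a Z : ℕ) : ℝ) := by exact_mod_cast h3
    push_cast at h4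
    exact h4
  have hpw : (P.card : ℝ) ≤ w := by
    have h1 : p ^ (1 : ℝ) ≤ (t : ℝ) ^ (-ε₁) * p ^ 2 := by
      have h2 : (t : ℝ) ^ ε₁ ≤ p := by
        calc (t : ℝ) ^ ε₁ ≤ (t : ℝ) ^ (1 : ℝ) := Real.rpow_le_rpow_of_exponent_le htr hε1
          _ = t := Real.rpow_one _
          _ ≤ p := htP
      rw [Real.rpow_one, Real.rpow_neg ht0.le, inv_mul_eq_div, le_div_iff₀ (by positivity)]
      nlinarith
    rwa [Real.rpow_one] at h1
  have h2w : 2 * w ≤ (X.card : ℝ) * Y.card := by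
    rw [hzN, hw]
    have h1 : 2 * (t : ℝ) ^ (-ε₁) ≤ z := by
      refine le_trans ?_ hz
      have h3 : (2 : ℝ) ≤ (t : ℝ) ^ (ε₁ / 2) := by
        calc (2 : ℝ) ≤ 32 := by norm_num
          _ ≤ (t : ℝ) ^ (ε₁ / 4) := ht4
          _ ≤ (t : ℝ) ^ (ε₁ / 2) := Real.rpow_le_rpow_of_exponent_le htr (by linarith)
      calc 2 * (t : ℝ) ^ (-ε₁) ≤ (t : ℝ) ^ (ε₁ / 2) * (t : ℝ) ^ (-ε₁) := by gcongr
        _ = (t : ℝ) ^ (-(ε₁ / 2)) := by
            rw [← Real.rpow_add ht0]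
            congr 1
            ring
    nlinarith [pow_pos hp0 2]
  have hq3 : (2 : ℝ) ^ (3 * m) = q ^ 3 := by rw [hq, ← pow_mul, mul_comm m 3]
  have hMcard : ∀ (f : Fin (3 * m) → MvPolynomial (Fin 3) ℝ) (Z : Finset (E 2)),
      ((Z.image (clf (n := 2) f)).card : ℝ) ≤ 2 * q ^ 3 := by
    intro f Z
    have h1 := card_image_clf (n := 2) f Z
    have h2 : ((Z.image (clf (n := 2) f)).card : ℝ) ≤ ((2 ^ (3 * m) + 1 : ℕ) : ℝ) := by
      have : (Z.image (clf (n := 2) f)).card ≤ 2 ^ (3 * m) + 1 := by convert h1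
      exact_mod_cast this
    push_cast at h2
    rw [hq3] at h2
    have h3 : 1 ≤ q ^ 3 := one_le_pow₀ hq1
    linarith
  have hqw := cells_num (t := t) (ε₁ := ε₁) (z := z) (q := q) htr hε ht4 hz hq1 hm
    (M := 2 * q ^ 3) (by positivity) le_rfl (u := 2 * w / ((X.card : ℝ) * Y.card))
    (by positivity) (by
      rw [hzN, hw]
      apply le_of_eq
      field_simp)
  have hcells := h.cells hw0 (Nat.cast_nonneg _) hT
    (fun X₁ Y₁ X₂ Y₂ h1 h2 _ _ => WW_mono h1 h2) (fun Z _ => Nat.cast_nonneg _)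
    (fun Z Z' hZ _ => by unfold TT2; exact_mod_cast dn_mono a hZ) (by norm_num) (by norm_num)
    hpw h2w (clf (n := 2) f) (clf (n := 2) g) hq1 (A := 12545) (by norm_num)
    (fun c => by
      have h1 := hfc c
      have h2 : (X.filter fun x => clf (n := 2) f x = some c).card * (2 ^ m) ^ 3 ≤ X.card := by
        convert h1 using 2
      rw [hq]
      exact_mod_cast h2)
    (fun c => by
      have h1 := hgc c
      have h2 : (Y.filter fun x => clf (n := 2) g x = some c).card * (2 ^ m) ^ 3 ≤ Y.card := by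
        convert h1 using 2
      rw [hq]
      exact_mod_cast h2)
    hnX hnY (hTsum f hfd X) (hTsum g hgd Y) (M := 2 * q ^ 3) (hMcard f X) (hMcard g Y) hqw
  refine ⟨fun s => (clf (n := 2) f s.1, clf (n := 2) g s.2), ?_, ?_⟩
  · intro A hA hk
    have h1 := card_image_prod (n := 2) f g A hk
    have h2 : (A.image fun s => (clf (n := 2) f s.1, clf (n := 2) g s.2)).card ≤
        1481548 * (2 ^ m) ^ 3 := by
      have h3 : 3 * (∑ j, (f j).totalDegree + ∑ j, (g j).totalDegree + 2) ≤ 114 * 2 ^ m := by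
        have : 1 ≤ 2 ^ m := Nat.one_le_two_pow
        omega
      have h4 : 2 * (2 ^ (3 * m) + 1) ≤ 4 * (2 ^ m) ^ 3 := by
        have h5 : 2 ^ (3 * m) = (2 ^ m) ^ 3 := by rw [← pow_mul, mul_comm m 3]
        rw [h5]
        have : 1 ≤ (2 ^ m) ^ 3 := Nat.one_le_pow _ _ (by positivity)
        omega
      calc (A.image fun s => (clf (n := 2) f s.1, clf (n := 2) g s.2)).card
          ≤ (3 * (∑ j, (f j).totalDegree + ∑ j, (g j).totalDegree + 2)) ^ 3 +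
              2 * (2 ^ (3 * m) + 1) := by
            refine le_trans (le_of_eq ?_) h1
            congr!
        _ ≤ (114 * 2 ^ m) ^ 3 + 4 * (2 ^ m) ^ 3 :=
            Nat.add_le_add (Nat.pow_le_pow_left h3 3) h4
        _ = 1481548 * (2 ^ m) ^ 3 := by ring
    have h3 : ((A.image fun s => (clf (n := 2) f s.1, clf (n := 2) g s.2)).card : ℝ) ≤
        ((1481548 * (2 ^ m) ^ 3 : ℕ) : ℝ) := by exact_mod_cast h2
    refine h3.trans (le_of_eq ?_)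
    push_cast
    rw [← pow_mul, mul_comm m 3, pow_mul]
    norm_num
  · refine (sum_classes_le f g X Y).trans (hcells.trans (le_of_eq ?_))
    rw [show (6 * (1 / 24) - 7 / 2 : ℝ) = -(13 / 4) by norm_num]
    unfold WW
    ring

/-- large `t` -/
theorem exists_large (η ε₁ : ℝ) (hε : 0 < ε₁) :
    ∃ t₀ : ℕ, ∀ t : ℕ, t₀ ≤ t → 32 ≤ (t : ℝ) ^ (ε₁ / 4) ∧ 590000 ≤ t := by
  have h1 := (tendsto_rpow_atTop (show 0 < ε₁ / 4 by positivity)).comp tendsto_natCast_atTop_atTop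
  have h2 := h1.eventually_ge_atTop (32 : ℝ)
  rw [Filter.eventually_atTop] at h2
  obtain ⟨t₀, ht₀⟩ := h2
  exact ⟨max t₀ 590000, fun t ht => ⟨ht₀ t ((le_max_left _ _).trans ht),
    (le_max_right _ _).trans ht⟩⟩

open scoped Classical in
/-- **START for `n = 2`** -/
theorem exists_start2 : ∃ C : ℝ, 1 ≤ C ∧ ∃ ε₀ : ℝ, 0 < ε₀ ∧ ∀ ε₁, 0 < ε₁ → ε₁ ≤ ε₀ →
    ∃ t₀ : ℕ, ∀ t : ℕ, t₀ ≤ t → 1 ≤ t → ∀ P : Finset (E 2), (dists P).card ≤ t →
    ∀ K : ℝ, 1 ≤ K → K * (t : ℝ) ^ (3 / 2 : ℝ) ≤ P.card →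
    (P.card : ℝ) ≤ 2 * (K * (t : ℝ) ^ (3 / 2 : ℝ)) →
    ∃ (a : Fin 4 → E 2) (X Y : Finset (E 2)) (z : ℝ), (∀ i, a i ∈ P) ∧ Det a P ∧ X ⊆ P ∧ Y ⊆ P ∧
      X.Nonempty ∧ Y.Nonempty ∧ dn a X + dn a Y ≤ 16 * t ∧
      (X.card : ℝ) * Y.card = z * (P.card : ℝ) ^ 2 ∧ (t : ℝ) ^ (-ε₁) ≤ z ∧ z ≤ 1 ∧
      0 < W adjE (X ×ˢ Y) ∧
      ((X.card : ℝ) * Y.card) ^ 2 / W adjE (X ×ˢ Y) ≤ C * (z ^ (3 / 8 : ℝ) * t) ∧
      K ^ 2 * z ^ (-(1 / 8) : ℝ) * (((X.card : ℝ) * Y.card) ^ 2 / W adjE (X ×ˢ Y)) ^ 3 ≤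
        C * ((X.card : ℝ) * Y.card) ∧
      K ^ (4 / 3 : ℝ) * z ^ (-(1 / 12) : ℝ) *
        (((X.card : ℝ) * Y.card) ^ 2 / W adjE (X ×ˢ Y)) ^ 2 * ((dn a X + dn a Y : ℕ) : ℝ) ≤
        C * ((X.card : ℝ) * Y.card) ∧
      ((t : ℝ) ^ (-(ε₁ / 2)) ≤ z → ∀ m : ℕ, (2 : ℝ) ^ m ≤ (t : ℝ) ^ (ε₁ / 20) →
        ∃ cl : E 2 × E 2 → Option (Fin (3 * m) → Bool) × Option (Fin (3 * m) → Bool),
          (∀ A ⊆ X ×ˢ Y, finrank ℝ (vectorSpan ℝ (A : Set (E 2 × E 2))) ≤ 3 →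
            ((A.image cl).card : ℝ) ≤ C * 8 ^ m) ∧
          ∑ c ∈ (X ×ˢ Y).image cl, (W adjE ((X ×ˢ Y).filter fun s => cl s = c) : ℝ) ≤
            C * ((2 : ℝ) ^ m) ^ (-(13 / 4) : ℝ) * W adjE (X ×ˢ Y)) := by
  obtain ⟨η, hη, t₁, H⟩ := hyp_single 2 le_rfl
  refine ⟨2 ^ 63, by norm_num, min η 1, by positivity, fun ε₁ hε hε₁ => ?_⟩
  have hεη : ε₁ ≤ η := hε₁.trans (min_le_left _ _)
  have hε1 : ε₁ ≤ 1 := hε₁.trans (min_le_right _ _)
  obtain ⟨t₂, ht₂⟩ := exists_large η ε₁ hε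
  refine ⟨max t₁ t₂, fun t ht ht1 P hP K hK hp1 hp2 => ?_⟩
  obtain ⟨ht4, ht5⟩ := ht₂ t ((le_max_right _ _).trans ht)
  have htr : (1 : ℝ) ≤ t := by exact_mod_cast ht1
  have ht0 : (0 : ℝ) < t := by linarith
  have ht32 : (0 : ℝ) < (t : ℝ) ^ (3 / 2 : ℝ) := Real.rpow_pos_of_pos ht0 _
  have hPt : (t : ℝ) ^ (3 / 2 : ℝ) ≤ P.card := by
    refine le_trans ?_ hp1
    exact le_mul_of_one_le_left ht32.le hK
  -- `768 t ≤ |P|`
  have hP768 : (768 : ℝ) * t ≤ P.card := by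
    refine le_trans ?_ hPt
    rw [show (3 / 2 : ℝ) = 1 / 2 + 1 by norm_num, Real.rpow_add ht0, Real.rpow_one]
    refine mul_le_mul_of_nonneg_right ?_ ht0.le
    rw [← Real.sqrt_eq_rpow]
    have h1 : (768 : ℝ) ^ 2 ≤ t := by
      have : (590000 : ℝ) ≤ t := by exact_mod_cast ht5
      norm_num
      linarith
    exact Real.le_sqrt_of_sq_le h1
  have htP : (t : ℝ) ≤ P.card := by linarith
  have hp0 : (0 : ℝ) < P.card := by linarith
  have hPne : P.Nonempty := card_pos.1 (by exact_mod_cast hp0)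
  have hP256 : 256 * (2 * t + 1) ≤ P.card := by
    have h1 : (768 * t : ℕ) ≤ P.card := by exact_mod_cast hP768
    omega
  obtain ⟨a, haP, hdet⟩ := Vale.Agent.P054.T3.H900.exists_det P hPne
  -- the extremal product
  set p : ℝ := (P.card : ℝ) with hp
  set w : ℝ := (t : ℝ) ^ (-ε₁) * p ^ 2 with hw
  have hw0 : 0 < w := by rw [hw]; positivity
  have hwp : w ≤ p * p := by
    rw [hw, ← sq]
    have h1 : (t : ℝ) ^ (-ε₁) ≤ 1 := Real.rpow_le_one_of_one_le_of_nonpos htr (by linarith)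
    calc (t : ℝ) ^ (-ε₁) * p ^ 2 ≤ 1 * p ^ 2 := by gcongr
      _ = p ^ 2 := one_mul _
  obtain ⟨X, Y, h⟩ := exists_extW WW (TT2 a) P (1 / 24) w hw0 hwp
  have hN0 : 0 < (X.card : ℝ) * Y.card := lt_of_lt_of_le hw0 h.big
  have hXne : X.Nonempty := by
    rw [nonempty_iff_ne_empty]
    rintro rfl
    simp at hN0
  have hYne : Y.Nonempty := by
    rw [nonempty_iff_ne_empty]
    rintro rfl
    simp at hN0
  have hdnpos : ∀ Z : Finset (E 2), Z.Nonempty → 0 < dn a Z := by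
    intro Z hZ
    unfold dn
    have h1 : 0 < (Z.image fun x => dist x (a 0)).card := card_pos.2 (hZ.image _)
    have h2 : (Z.image fun x => dist x (a 0)).card ≤
        ∑ i, (Z.image fun x => dist x (a i)).card :=
      Finset.single_le_sum (f := fun i => (Z.image fun x => dist x (a i)).card)
        (fun i _ => Nat.zero_le _) (Finset.mem_univ 0)
    exact lt_of_lt_of_le h1 h2
  have hdnP : dn a P ≤ 8 * t := by
    have h1 := Vale.Agent.P054.T3.H900.dn_le (m := 4) a haP hP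
    refine h1.trans ?_
    omega
  have hdnX : dn a X ≤ 8 * t := (dn_mono a h.hX).trans hdnP
  have hdnY : dn a Y ≤ 8 * t := (dn_mono a h.hY).trans hdnP
  set z : ℝ := (X.card : ℝ) * Y.card / p ^ 2 with hz
  have hpsq : 0 < p ^ 2 := by positivity
  have hzN : (X.card : ℝ) * Y.card = z * p ^ 2 := by rw [hz]; field_simp
  have hzt : (t : ℝ) ^ (-ε₁) ≤ z := by
    rw [hz, le_div_iff₀ hpsq]; exact h.big
  have hXp : (X.card : ℝ) ≤ p := by rw [hp]; exact_mod_cast card_le_card h.hX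
  have hYp : (Y.card : ℝ) ≤ p := by rw [hp]; exact_mod_cast card_le_card h.hY
  have hz1 : z ≤ 1 := by
    rw [hz, div_le_one hpsq, sq]
    exact mul_le_mul hXp hYp (Nat.cast_nonneg _) (by linarith)
  have hmax := h.max P subset_rfl P subset_rfl hwp
  have hv : p ^ 4 ≤ 2 ^ 16 * (t * WW P P) := by
    have h1 := W_full_ge hP hP256
    unfold WW
    rw [hp]
    exact_mod_cast h1
  have hTP : TT2 a P + TT2 a P ≤ 16 * t := by
    have h1 : (dn a P : ℝ) ≤ 8 * t := by exact_mod_cast hdnP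
    unfold TT2
    linarith
  have hTpos : 0 < TT2 a X + TT2 a Y := by
    unfold TT2
    have h1 : (0 : ℝ) < dn a X := by exact_mod_cast hdnpos X hXne
    have h2 : (0 : ℝ) < dn a Y := by exact_mod_cast hdnpos Y hYne
    linarith
  have hTT0 : 0 ≤ TT2 a P + TT2 a P := by
    unfold TT2
    positivity
  have hmax' : WW P P * Phi (1 / 24) ((X.card : ℝ) * Y.card) (TT2 a X + TT2 a Y) ≤
      WW X Y * Phi (1 / 24) (p ^ 2) (TT2 a P + TT2 a P) := by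
    rw [sq]
    exact hmax
  obtain ⟨n1, n2, n3, n4⟩ := start2_num (b := 1 / 24) (K := K) (p := p) (t := t)
    (N := (X.card : ℝ) * Y.card) (e := WW X Y) (T := TT2 a X + TT2 a Y) (v := WW P P)
    (TP := TT2 a P + TT2 a P) (A := 16) (D := 2 ^ 16) (by norm_num) hK htr hp1 hp2 hN0
    (Nat.cast_nonneg _) (by norm_num) hTT0 hTP (by norm_num) hTpos hv hmax' hzN
  refine ⟨a, X, Y, z, haP, hdet, h.hX, h.hY, hXne, hYne, ?_, hzN, hzt, hz1, ?_, ?_, ?_, ?_, ?_⟩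
  · omega
  · have : (0 : ℝ) < (W adjE (X ×ˢ Y) : ℝ) := n1
    exact_mod_cast this
  · have h1 : ((X.card : ℝ) * Y.card) ^ 2 / W adjE (X ×ˢ Y) ≤
        2 * (2 * 16 * 2 ^ 16) * (z ^ (1 / 3 + 1 / 24 : ℝ) * t) := n2
    rw [show (1 / 3 + 1 / 24 : ℝ) = 3 / 8 by norm_num] at h1
    have hz0 : 0 < z := lt_of_lt_of_le (Real.rpow_pos_of_pos ht0 _) hzt
    refine h1.trans (mul_le_mul_of_nonneg_right (by norm_num)
      (mul_nonneg (Real.rpow_nonneg hz0.le _) ht0.le))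
  · have h1 : K ^ 2 * z ^ (-(3 * (1 / 24)) : ℝ) *
        (((X.card : ℝ) * Y.card) ^ 2 / W adjE (X ×ˢ Y)) ^ 3 ≤
        (2 * 16 * 2 ^ 16) ^ 3 * ((X.card : ℝ) * Y.card) := n3
    rw [show (-(3 * (1 / 24)) : ℝ) = -(1 / 8) by norm_num] at h1
    refine h1.trans (mul_le_mul_of_nonneg_right (by norm_num) hN0.le)
  · have h1 : K ^ (4 / 3 : ℝ) * z ^ (-(2 * (1 / 24)) : ℝ) *
        (((X.card : ℝ) * Y.card) ^ 2 / W adjE (X ×ˢ Y)) ^ 2 * (TT2 a X + TT2 a Y) ≤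
        (2 * 16 * 2 ^ 16) ^ 2 * ((X.card : ℝ) * Y.card) := n4
    rw [show (-(2 * (1 / 24)) : ℝ) = -(1 / 12) by norm_num] at h1
    have h2 : ((dn a X + dn a Y : ℕ) : ℝ) = TT2 a X + TT2 a Y := by
      unfold TT2; push_cast; ring
    rw [h2]
    refine h1.trans (mul_le_mul_of_nonneg_right (by norm_num) hN0.le)
  · intro hz2 m hm
    obtain ⟨cl, h1, h2⟩ := exists_cells2 ht1 hε hε1 hεη ht4 htP
      (fun f hf hfd => H t ((le_max_left _ _).trans ht) ht1 P hP (by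
        have e : (((2 + 1 : ℕ) : ℝ)) / 2 = 3 / 2 := by norm_num
        rw [e]; exact hPt) f hf hfd) h hzN hz2 m hm
    refine ⟨cl, fun A hA hk => ?_, ?_⟩
    · refine (h1 A hA hk).trans (mul_le_mul_of_nonneg_right (by norm_num) (by positivity))
    · refine h2.trans ?_
      refine mul_le_mul_of_nonneg_right (mul_le_mul_of_nonneg_right (by norm_num)
        (by positivity)) (Nat.cast_nonneg _)

end Vale.Agent.P054.T3.H226
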