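import Vale.Agent.P054.T3.H226.Forster

set_option autoImplicit false
set_option linter.all false

/-!
# P054 / T3 / H226: the weight `w` from Forster's position
-/

namespace Vale.Agent.P054.T3.H226

open Finset Matrix Module
open scoped RealInnerProductSpace MatrixOrder

/-- `(∑ |g_i|²)² ≤ rank * ∑ ⟨g_i, g_j⟩²` -/
theorem sum_inner_sq_ge {ι E : Type*} [NormedAddCommGroup E] [InnerProductSpace ℝ E]
    (A : Finset ι) (g : ι → E) {r : ℕ}
    (hr : finrank ℝ (Submodule.span ℝ (g '' (A : Set ι))) ≤ r) :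
    (∑ i ∈ A, ⟪g i, g i⟫) ^ 2 ≤ r * ∑ i ∈ A, ∑ j ∈ A, ⟪g i, g j⟫ ^ 2 := by
  classical
  set U := Submodule.span ℝ (g '' (A : Set ι)) with hU
  have hfin : FiniteDimensional ℝ U :=
    FiniteDimensional.span_of_finite ℝ (A.finite_toSet.image g)
  let b := stdOrthonormalBasis ℝ U
  let a : ι → Fin (finrank ℝ U) → ℝ := fun i k => ⟪(b k : E), g i⟫
  have hg : ∀ i ∈ A, ∀ x : E, ⟪x, g i⟫ = ∑ k, a i k * ⟪x, (b k : E)⟫ := by
    intro i hi x
    have hiU : g i ∈ U := Submodule.subset_span ⟨i, hi, rfl⟩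
    have h1 := b.sum_repr ⟨g i, hiU⟩
    have h2 : g i = ∑ k, (b.repr ⟨g i, hiU⟩ k) • (b k : E) := by
      have := congrArg (Submodule.subtype U) h1
      rw [map_sum] at this
      simpa using this.symm
    have h3 : ∀ k, b.repr ⟨g i, hiU⟩ k = a i k := by
      intro k
      rw [b.repr_apply_apply]
      rfl
    conv_lhs => rw [h2]
    rw [inner_sum]
    refine Finset.sum_congr rfl fun k _ => ?_
    rw [inner_smul_right, h3]
  have hgg : ∀ i ∈ A, ∀ j ∈ A, ⟪g i, g j⟫ = ∑ k, a i k * a j k := by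
    intro i hi j hj
    rw [hg j hj]
    refine Finset.sum_congr rfl fun k _ => ?_
    rw [mul_comm]
    congr 1
    exact real_inner_comm _ _
  have e1 : ∑ i ∈ A, ⟪g i, g i⟫ = ∑ k, ∑ i ∈ A, a i k * a i k := by
    rw [Finset.sum_comm]
    exact Finset.sum_congr rfl fun i hi => hgg i hi i hi
  have e2 : ∑ i ∈ A, ∑ j ∈ A, ⟪g i, g j⟫ ^ 2 = ∑ k, ∑ l, (∑ i ∈ A, a i k * a i l) ^ 2 := by
    calc ∑ i ∈ A, ∑ j ∈ A, ⟪g i, g j⟫ ^ 2
        = ∑ i ∈ A, ∑ j ∈ A, ∑ k, ∑ l, (a i k * a i l) * (a j k * a j l) := by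
          refine Finset.sum_congr rfl fun i hi => Finset.sum_congr rfl fun j hj => ?_
          rw [hgg i hi j hj, sq, Finset.sum_mul_sum]
          refine Finset.sum_congr rfl fun k _ => Finset.sum_congr rfl fun l _ => ?_
          ring
      _ = ∑ k, ∑ l, ∑ i ∈ A, ∑ j ∈ A, (a i k * a i l) * (a j k * a j l) := by
          have s1 : ∀ i, ∑ j ∈ A, ∑ k, ∑ l, (a i k * a i l) * (a j k * a j l) =
              ∑ k, ∑ l, ∑ j ∈ A, (a i k * a i l) * (a j k * a j l) := by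
            intro i
            rw [Finset.sum_comm]
            exact Finset.sum_congr rfl fun k _ => Finset.sum_comm
          rw [Finset.sum_congr rfl fun i _ => s1 i, Finset.sum_comm]
          exact Finset.sum_congr rfl fun k _ => Finset.sum_comm
      _ = _ := by
          refine Finset.sum_congr rfl fun k _ => Finset.sum_congr rfl fun l _ => ?_
          rw [sq, Finset.sum_mul_sum]
  rw [e1, e2]
  have h1 : (∑ k, ∑ i ∈ A, a i k * a i k) ^ 2 ≤
      (finrank ℝ U : ℝ) * ∑ k, (∑ i ∈ A, a i k * a i k) ^ 2 := by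
    have := sq_sum_le_card_mul_sum_sq (s := (univ : Finset (Fin (finrank ℝ U))))
      (f := fun k => ∑ i ∈ A, a i k * a i k)
    simpa using this
  have h2 : ∑ k, (∑ i ∈ A, a i k * a i k) ^ 2 ≤ ∑ k, ∑ l, (∑ i ∈ A, a i k * a i l) ^ 2 := by
    refine Finset.sum_le_sum fun k _ => ?_
    exact Finset.single_le_sum (f := fun l => (∑ i ∈ A, a i k * a i l) ^ 2)
      (fun l _ => sq_nonneg _) (mem_univ k)
  have h3 : 0 ≤ ∑ k, ∑ l, (∑ i ∈ A, a i k * a i l) ^ 2 :=
    Finset.sum_nonneg fun k _ => Finset.sum_nonneg fun l _ => sq_nonneg _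
  have h4 : ((finrank ℝ U : ℕ) : ℝ) ≤ r := by exact_mod_cast hr
  calc _ ≤ (finrank ℝ U : ℝ) * ∑ k, (∑ i ∈ A, a i k * a i k) ^ 2 := h1
    _ ≤ (finrank ℝ U : ℝ) * ∑ k, ∑ l, (∑ i ∈ A, a i k * a i l) ^ 2 := by gcongr
    _ ≤ _ := by gcongr

variable {ι κ : Type*} [Fintype κ] [DecidableEq κ]

/-- **the weight, for vectors** -/
theorem exists_weight_vec [Fintype ι] [Nonempty ι] [Nonempty κ] (v : ι → κ → ℝ)
    (h0 : ∀ i, v i ≠ 0) (hv : ∀ x : κ → ℝ, x ≠ 0 →
      Fintype.card κ * (univ.filter fun i => v i ⬝ᵥ x = 0).card < Fintype.card ι) :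
    ∃ w : ι → ι → ℝ, (∀ i j, 0 ≤ w i j) ∧ (∀ i j, w i j ≤ 1) ∧ (∀ i j, w i j = w j i) ∧
      (∀ i, w i i = 1) ∧ (∀ i, (Fintype.card κ : ℝ) * ∑ j, w i j = Fintype.card ι) ∧
      ∀ (A : Finset ι) (r : ℕ), finrank ℝ (Submodule.span ℝ (v '' (A : Set ι))) ≤ r →
        (A.card : ℝ) ^ 2 ≤ r * ∑ i ∈ A, ∑ j ∈ A, w i j := by
  classical
  obtain ⟨c, hc, hpd, hst⟩ := exists_position v h0 hv
  set M := Mf v univ c with hM
  set N : ℝ := ((Fintype.card ι : ℕ) : ℝ) with hN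
  set h : ℝ := ((Fintype.card κ : ℕ) : ℝ) with hh
  have hN0 : 0 < N := by
    rw [hN]; exact_mod_cast Fintype.card_pos
  have hh0 : 0 < h := by
    rw [hh]; exact_mod_cast Fintype.card_pos
  obtain ⟨T, hT⟩ : ∃ T : Matrix κ κ ℝ, M⁻¹ = Tᵀ * T := by
    obtain ⟨T, hT⟩ := CStarAlgebra.nonneg_iff_eq_star_mul_self.mp hpd.inv.posSemidef.nonneg
    exact ⟨T, by rw [hT, Matrix.star_eq_conjTranspose,
      Matrix.conjTranspose_eq_transpose_of_trivial]⟩
  let q : ι → ι → ℝ := fun i j => v i ⬝ᵥ (M⁻¹ *ᵥ v j)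
  have hqT : ∀ i j, q i j = (T *ᵥ v i) ⬝ᵥ (T *ᵥ v j) := by
    intro i j
    simp only [q]
    rw [hT, ← Matrix.mulVec_mulVec, Matrix.dotProduct_mulVec, Matrix.vecMul_transpose]
  have hqs : ∀ i j, q i j = q j i := by
    intro i j
    rw [hqT, hqT, dotProduct_comm]
  let g : ι → EuclideanSpace ℝ κ := fun i => WithLp.toLp 2 (Real.sqrt (N / h * c i) • (T *ᵥ v i))
  have hgg : ∀ i j, ⟪g i, g j⟫ = Real.sqrt (N / h * c i) * Real.sqrt (N / h * c j) * q i j := by
    intro i j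
    rw [hqT]
    simp only [g, PiLp.inner_apply, RCLike.inner_apply, conj_trivial, Pi.smul_apply, smul_eq_mul,
      dotProduct, Finset.mul_sum]
    exact Finset.sum_congr rfl fun k _ => by ring
  have hgii : ∀ i, ⟪g i, g i⟫ = 1 := by
    intro i
    rw [hgg, Real.mul_self_sqrt (by have := hc i; positivity)]
    have h1 := hst i
    have h2 : N * (c i * q i i) = h := h1
    field_simp
    linarith
  let w : ι → ι → ℝ := fun i j => ⟪g i, g j⟫ ^ 2
  have hw : ∀ i j, w i j = (N / h) ^ 2 * c i * (c j * (q j i) ^ 2) := by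
    intro i j
    simp only [w]
    rw [hgg, mul_pow, mul_pow, Real.sq_sqrt (by have := hc i; positivity),
      Real.sq_sqrt (by have := hc j; positivity), hqs i j]
    ring
  refine ⟨w, fun i j => sq_nonneg _, fun i j => ?_, fun i j => ?_, fun i => ?_, fun i => ?_,
    fun A r hr => ?_⟩
  · have h1 := abs_real_inner_le_norm (g i) (g j)
    have h2 : ∀ i, ‖g i‖ = 1 := by
      intro i
      have h3 := real_inner_self_eq_norm_sq (g i)
      rw [hgii] at h3
      have h4 := norm_nonneg (g i)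
      nlinarith
    rw [h2, h2, mul_one] at h1
    exact (sq_le_one_iff_abs_le_one _).2 h1
  · simp only [w]
    rw [real_inner_comm]
  · simp only [w]
    rw [hgii]
    norm_num
  · have h1 : ∑ j, w i j = (N / h) ^ 2 * c i * ∑ j, c j * (v j ⬝ᵥ (M⁻¹ *ᵥ v i)) *
        (v j ⬝ᵥ (M⁻¹ *ᵥ v i)) := by
      rw [Finset.mul_sum]
      refine Finset.sum_congr rfl fun j _ => ?_
      rw [hw]
      simp only [q]
      ring
    rw [h1, ← dot_Mf v univ c (M⁻¹ *ᵥ v i) (M⁻¹ *ᵥ v i), ← hM, Matrix.mulVec_mulVec,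
      Matrix.mul_nonsing_inv _ hpd.det_pos.ne'.isUnit, Matrix.one_mulVec, dotProduct_comm]
    have h2 : N * (c i * q i i) = h := hst i
    have h3 : v i ⬝ᵥ (M⁻¹ *ᵥ v i) = q i i := rfl
    rw [h3]
    field_simp
    nlinarith
  · have h1 := sum_inner_sq_ge A g (r := r) ?_
    · simp only [hgii, Finset.sum_const, nsmul_eq_mul, mul_one] at h1
      exact h1
    · refine le_trans ?_ hr
      let L : (κ → ℝ) →ₗ[ℝ] EuclideanSpace ℝ κ :=
        ((WithLp.linearEquiv 2 ℝ (κ → ℝ)).symm : (κ → ℝ) →ₗ[ℝ] EuclideanSpace ℝ κ).comp T.mulVecLin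
      have h2 : Submodule.span ℝ (g '' (A : Set ι)) ≤
          (Submodule.span ℝ (v '' (A : Set ι))).map L := by
        rw [Submodule.span_le]
        rintro _ ⟨i, hi, rfl⟩
        refine ⟨Real.sqrt (N / h * c i) • v i,
          Submodule.smul_mem _ _ (Submodule.subset_span ⟨i, hi, rfl⟩), ?_⟩
        simp only [g, L]
        rw [map_smul]
        rfl
      have hfin : FiniteDimensional ℝ (Submodule.span ℝ (v '' (A : Set ι))) :=
        FiniteDimensional.span_of_finite ℝ (A.finite_toSet.image v)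
      exact (Submodule.finrank_mono h2).trans (Submodule.finrank_map_le _ _)

end Vale.Agent.P054.T3.H226
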